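import Vale.Agent.P354M0.Lst

/-! The two coupling terms lose no derivative. -/

open scoped ContDiff InnerProductSpace
open Set intervalIntegral
open Complex (I)
open Vale.Agent.P354BF Vale.Agent.P354XT Vale.Agent.P354XN Vale.Agent.P354RP
open Vale.Agent.P354XH (Fm HP K ka el Bk Qf En dr)

noncomputable section

namespace Vale.Agent.P354M0

theorem cpl_pt {C1 C2 t l p1 p2 j Z W : ℝ} (ht : 0 ≤ t) (hl : 0 ≤ l) (c1 : 0 ≤ C1) (c2 : 0 ≤ C2)
    (h1 : |p1| ≤ C1 * (l * t)) (h2 : |p2| ≤ C2 * (l * t ^ 2)) (hj : |j| ≤ Z * W) :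
    |p1 * j + p2 * Z ^ 2| ≤ (C1 + C2) * (l * (W ^ 2 + t ^ 2 * Z ^ 2)) := by
  have a1 : |p1 * j| ≤ C1 * (l * t) * (Z * W) := by
    rw [abs_mul]; exact mul_le_mul h1 hj (abs_nonneg _) (by positivity)
  have a2 : |p2 * Z ^ 2| ≤ C2 * (l * t ^ 2) * Z ^ 2 := by
    rw [abs_mul, abs_of_nonneg (sq_nonneg Z)]; gcongr
  have a3 := mul_le_mul_of_nonneg_left (show t * (Z * W) ≤ W ^ 2 + t ^ 2 * Z ^ 2 by
    linarith [sq_nonneg (W - t * Z), sq_nonneg W, sq_nonneg (t * Z)]) (mul_nonneg c1 hl)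
  have a4 : 0 ≤ C2 * (l * W ^ 2) := by positivity
  linarith [abs_add_le (p1 * j) (p2 * Z ^ 2)]

theorem cpl0 {n : ℕ} {b ch h al κ : Fm} (hb : HP (2 * n) b) (hch : HP (2 * n + 1) ch)
    (hh : HP (2 * n) h) (hal : HP 0 al) (hκ : HP 1 κ) {x y : ℝ} (hxy : x ≤ y)
    (h0 : ∀ M a om m, ∀ r, r = x ∨ r = y → b M a r om m = 0 ∧ ch M a r om m = 0) (M0 a0 : ℝ) :
    ∃ C, 0 ≤ C ∧ ∀ M a, |M - M0| ≤ 1 → |a - a0| ≤ 1 → ∀ (S : Type) [NormedAddCommGroup S]
      [InnerProductSpace ℂ S] (om m : ℝ) (v : ℝ → S), ContDiff ℝ ∞ v →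
      |∫ r in x..y, ri (((om * al M a r om m : ℝ) : ℂ) • I • v r) (Xu b ch h M a om m
        (fun r => (al M a r om m : ℂ) • deriv v r + (dr al M a r om m : ℂ) • v r -
          (κ M a r om m : ℂ) • I • v r) r)| ≤
        C * ∫ r in x..y, lam om m ^ n * (‖deriv v r‖ ^ 2 + lam om m * ‖v r‖ ^ 2) := by
  have A1 := hb.mul HP.om
  have A2 := ((A1.mul hκ).mul hal).sub (((hch.mul HP.om).mul hal).mul hal)
  have P0 := (hh.mul HP.om).sub (A1.dr.smul (k := fun _ => 2) contDiff_const)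
  have P1 := (P0.mul hal).mul hal
  have P2 := ((((((A1.mul hκ).mul hal.dr).sub (((hch.mul HP.om).mul hal).mul hal.dr)).smul
    (k := fun _ => 2) contDiff_const).sub ((P0.mul hκ).mul hal)).sub A2.dr)
  obtain ⟨C1, c1, b1⟩ := hp_bd P1 M0 a0 x y
  obtain ⟨C2, c2, b2⟩ := hp_bd P2 M0 a0 x y
  refine ⟨C1 + C2, add_nonneg c1 c2, fun M a h1 h2 S _ _ om m v hv => ?_⟩
  obtain ⟨u, hu⟩ : ∃ u : ℝ → S, u = fun r => (al M a r om m : ℂ) • deriv v r +
    (dr al M a r om m : ℂ) • v r - (κ M a r om m : ℂ) • I • v r := ⟨_, rfl⟩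
  have su : ContDiff ℝ ∞ u := by
    rw [hu]
    exact (((cd_C (hp_cd hal M a om m)).smul (smD hv)).add
      ((cd_C (hp_cd hal.dr M a om m)).smul hv)).sub
      ((cd_C (hp_cd hκ M a om m)).smul (hv.const_smul I))
  rw [← hu]
  have cf : Continuous fun r => ri (((om * al M a r om m : ℝ) : ℂ) • I • v r)
      (Xu b ch h M a om m u r) :=
    cont_ri ((cd_C (contDiff_const.mul (hp_cd hal M a om m))).smul (hv.const_smul I)).continuous
      ((((cd_C (contDiff_const.mul (hp_cd hb M a om m))).smul (smD su)).sub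
        ((cd_C (contDiff_const.mul (hp_cd hch M a om m))).smul (su.const_smul I))).add
        ((cd_C (hp_cd hh M a om m)).smul su)).continuous
  have cg : Continuous fun r => lam om m ^ n * (‖deriv v r‖ ^ 2 + lam om m * ‖v r‖ ^ 2) :=
    continuous_const.mul (((smD hv).continuous.norm.pow 2).add
      (continuous_const.mul (hv.continuous.norm.pow 2)))
  have key : ∀ r ∈ Icc x y, ∃ q, HasDerivAt (fun r => 2 * (b M a r om m * om) *
      ri (I • (al M a r om m : ℂ) • v r) (u r) + (b M a r om m * om * κ M a r om m * al M a r om m -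
        ch M a r om m * om * al M a r om m * al M a r om m) * ‖v r‖ ^ 2) q r ∧
      |ri (((om * al M a r om m : ℝ) : ℂ) • I • v r) (Xu b ch h M a om m u r) - q| ≤
        (C1 + C2) * (lam om m ^ n * (‖deriv v r‖ ^ 2 + lam om m * ‖v r‖ ^ 2)) := fun r hr => by
    refine ⟨_, (((A1.hd M a r om m).const_mul 2).mul (der_ri
      (((hal.hd M a r om m).ofReal_comp.smul (hasD hv r)).const_smul I) (hasD su r))).add
      ((A2.hd M a r om m).mul (der_sq (hasD hv r))), ?_⟩
    have u1 := b1 M a h1 h2 r hr om m _ (fq_om om m) (fq_m om m)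
    have u2 := b2 M a h1 h2 r hr om m _ (fq_om om m) (fq_m om m)
    have u3 := abs_ri (I • v r) (deriv v r)
    rw [norm_I] at u3
    rw [pow_succ, fq_pow] at u1
    rw [pow_succ, pow_succ, fq_pow, mul_assoc _ (fq om m), ← sq] at u2
    have := cpl_pt (by linarith [fq_one om m]) (pow_pos (lam_pos om m) n).le c1 c2 u1 u2 u3
    rw [fq_sq] at this
    refine le_trans (le_of_eq (congrArg abs ?_)) this
    have e : u r = (al M a r om m : ℂ) • deriv v r + (dr al M a r om m : ℂ) • v r -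
      (κ M a r om m : ℂ) • I • v r := by rw [hu]
    have e2 : ri (I • deriv v r) (v r) = -ri (I • v r) (deriv v r) := by rw [ri_comm, ri_I]
    simp only [Xu, X, Pi.smul_apply', Pi.smul_apply, e, smul_add, smul_sub, ri_sub, ri_add, ri_real,
      ri_add_l, ri_real_l, ri_II, ri_I_self, ri_self, smul_comm I ((_ : ℝ) : ℂ),
      ri_comm (deriv v r) (v r), ri_comm (v r) (I • v r), norm_I, e2]
    ring
  choose! q k1 k2 using key
  have z : ∀ r, r = x ∨ r = y → 2 * (b M a r om m * om) *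
      ri (I • (al M a r om m : ℂ) • v r) (u r) + (b M a r om m * om * κ M a r om m * al M a r om m -
        ch M a r om m * om * al M a r om m * al M a r om m) * ‖v r‖ ^ 2 = 0 := fun r hr => by
    simp [(h0 M a om m r hr).1, (h0 M a om m r hr).2]
  have i1 := int_le hxy (cf.sub ((continuous_const (y := C1 + C2)).mul cg)).continuousOn fun r hr =>
    ⟨_, k1 r hr, by have := (abs_le.1 (k2 r hr)).2; simp only [Pi.sub_apply, Pi.mul_apply]; linarith⟩
  have i2 := int_le hxy (cf.neg.sub ((continuous_const (y := C1 + C2)).mul cg)).continuousOn fun r hr =>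
    ⟨_, (k1 r hr).neg, by
      have := (abs_le.1 (k2 r hr)).1
      simp only [Pi.sub_apply, Pi.mul_apply, Pi.neg_apply]; linarith⟩
  simp only [Pi.sub_apply, Pi.mul_apply, Pi.neg_apply, z x (Or.inl rfl), z y (Or.inr rfl)] at i1 i2
  rw [integral_sub (Continuous.intervalIntegrable (by fun_prop) _ _)
    (Continuous.intervalIntegrable (by fun_prop) _ _), integral_const_mul] at i1 i2
  rw [integral_neg] at i2
  rw [abs_le]
  constructor <;> linarith

theorem cpl {n : ℕ} {b ch h : Fm} (hb : HP (2 * n) b) (hch : HP (2 * n + 1) ch) (hh : HP (2 * n) h)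
    {χ : ℝ → ℝ} (hχ : ContDiff ℝ ∞ χ) {x y : ℝ} (hx : χ x = 0) (hy : χ y = 0) (hxy : x ≤ y)
    (M0 a0 : ℝ) : ∃ C, 0 ≤ C ∧ ∀ M a, |M - M0| ≤ 1 → |a - a0| ≤ 1 →
      ∀ (S : Type) [NormedAddCommGroup S] [InnerProductSpace ℂ S] (om m : ℝ) (v : ℝ → S),
      ContDiff ℝ ∞ v →
      |∫ r in x..y, χ r * ri ((om : ℂ) • I • v r) (Xu b ch h M a om m (deriv v) r)| ≤
        C * (∫ r in x..y, lam om m ^ n * (‖deriv v r‖ ^ 2 + lam om m * ‖v r‖ ^ 2)) ∧
      |∫ r in x..y, χ r * ri (((om * De M a r : ℝ) : ℂ) • I • v r) (Xu b ch h M a om m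
        (fun r => Lv M a om m v r + ((2 * r - 2 * M : ℝ) : ℂ) • v r) r)| ≤
        C * ∫ r in x..y, lam om m ^ n * (‖deriv v r‖ ^ 2 + lam om m * ‖v r‖ ^ 2) := by
  have s := P354XH.sr hχ
  have h0 : ∀ M a om m, ∀ r, r = x ∨ r = y → χ r * b M a r om m = 0 ∧ χ r * ch M a r om m = 0 := by
    rintro M a om m r (rfl | rfl) <;> simp [hx, hy]
  obtain ⟨C1, c1, H1⟩ := cpl0 (hb.smul s) (hch.smul s) (hh.smul s) HP.one (HP.zero 1) hxy h0 M0 a0
  obtain ⟨C2, c2, H2⟩ := cpl0 (hb.smul s) (hch.smul s) (hh.smul s) (HP.const P354XH.smooth_De)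
    (HP.K.smul (k := fun _ => 2) contDiff_const) hxy h0 M0 a0
  refine ⟨C1 + C2, add_nonneg c1 c2, fun M a h1 h2 S _ _ om m v hv => ?_⟩
  have p : 0 ≤ ∫ r in x..y, lam om m ^ n * (‖deriv v r‖ ^ 2 + lam om m * ‖v r‖ ^ 2) :=
    integral_nonneg hxy fun r _ => by have := lam_pos om m; positivity
  have e : ∀ (H : S) (u : ℝ → S) (r : ℝ), χ r * ri H (Xu b ch h M a om m u r) =
      ri H (Xu (fun M a r om m => χ r * b M a r om m) (fun M a r om m => χ r * ch M a r om m)
        (fun M a r om m => χ r * h M a r om m) M a om m u r) := fun H u r => by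
    simp only [Xu, X, ri_add, ri_sub, ri_real]; ring
  simp only [e]
  constructor
  · refine le_trans (le_of_eq ?_) ((H1 M a h1 h2 S om m v hv).trans
      (mul_le_mul_of_nonneg_right (by linarith) p))
    simp [dr]
  · refine le_trans (le_of_eq ?_) ((H2 M a h1 h2 S om m v hv).trans
      (mul_le_mul_of_nonneg_right (by linarith) p))
    have : (fun r => Lv M a om m v r + ((2 * r - 2 * M : ℝ) : ℂ) • v r) = fun r =>
        (De M a r : ℂ) • deriv v r + (dr (fun M a r _ _ => De M a r) M a r om m : ℂ) • v r -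
          ((2 * K a r om m : ℝ) : ℂ) • I • v r := funext fun r => by
      rw [dr, (der_De M a r).deriv, Lv]; abel
    rw [this]

end Vale.Agent.P354M0
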