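import Vale.Agent.P354XT.Mode
import Vale.Agent.P354RP.Id

/-!
The multiplier for the scalar operator P 0 at one real frequency: the scalar package MU,
the uncertainty estimate UNC and the statement MODE0.
-/

open scoped ContDiff InnerProductSpace
open Set
open Complex (I)
open Vale.Agent.P354BF Vale.Agent.P354XT
open Vale.Agent.P354XH (Fm HP K ka el Bk Qf En)
open Vale.Agent.P354XN (ri)
open Vale.Agent.P354RP (D X)

noncomputable section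

namespace Vale.Agent.P354M0

/-- The scalar package: one polynomial multiplier which is good for all r ≥ rb. -/
structure Mu (M0 a0 : ℝ) (f : ℝ × ℝ × ℝ → ℝ) (n : ℕ) (b ch h : Fm) (rb q2 q3 Rs c C δ : ℝ) :
    Prop where
  hn : 2 ≤ n
  hb : HP (2 * n) b
  hch : HP (2 * n + 1) ch
  hh : HP (2 * n) h
  cpos : 0 < c
  Cpos : 0 ≤ C
  dpos : 0 < δ
  ord : M0 < rb ∧ rb < rp M0 a0 ∧ rp M0 a0 < q2 ∧ q2 ≤ q3 ∧ q3 < Rs ∧ 1 ≤ Rs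
  bulk1 : ∀ M a, |M - M0| < δ → |a - a0| < δ → ∀ om m r, rb ≤ r → ∀ x L,
    el a om m - c * (om ^ 2 + m ^ 2) ≤ L → c * (om ^ 2 + m ^ 2) ^ n *
      ((De M a r * x - K a r om m) ^ 2 / r ^ 4 + ka M a r om m ^ 2 / r ^ 6) ≤
        Bk b ch h M a r om m x L
  bulk2 : ∀ M a, |M - M0| < δ → |a - a0| < δ → ∀ om m r, rb ≤ r → r ≤ q2 ∨ q3 ≤ r → ∀ x L,
    el a om m - c * (om ^ 2 + m ^ 2) ≤ L → c * (om ^ 2 + m ^ 2) ^ n *
      ((x ^ 2 + (om ^ 2 + m ^ 2) + L) / r) ≤ Bk b ch h M a r om m x L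
  flux0 : ∀ M a, |M - M0| < δ → |a - a0| < δ → ∀ om m r, rb ≤ r → De M a r ≤ 0 → ∀ x L,
    el a om m - c * (om ^ 2 + m ^ 2) ≤ L → c * (om ^ 2 + m ^ 2) ^ n * (-De M a r * x ^ 2) ≤
      Qf b ch M a r om m x L
  flux1 : ∀ M a, |M - M0| < δ → |a - a0| < δ → ∀ om m r, Rs ≤ r → ∀ x L,
    el a om m - c * (om ^ 2 + m ^ 2) ≤ L → Qf b ch M a r om m x L ≤
      C * (om ^ 2 + m ^ 2) ^ n * ((De M a r * x - 2 * K a r om m) ^ 2 / r ^ 2)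
  energy : ∀ r, rb ≤ r → ∀ om m : ℝ, om ^ 2 + m ^ 2 = 1 → ∃ mu c1 : ℝ, 0 < c1 ∧ ∀ x s L,
    el a0 om m ≤ L → s ^ 2 ≤ L →
      c1 * (x ^ 2 + 1 + L) ≤ En f b ch (fun _ _ _ _ _ => mu) M0 a0 r om m x s L

/-- The scalar package exists. -/
def MU : Prop :=
  ∀ M0 a0 rm : ℝ, a0 ≠ 0 → |a0| < M0 → ∀ f, Slope M0 a0 rm f →
    ∃ n b ch h rb q2 q3 Rs c C δ, rm ≤ rb ∧ Mu M0 a0 f n b ch h rb q2 q3 Rs c C δ

section curves
variable {S : Type} [NormedAddCommGroup S] [InnerProductSpace ℂ S]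

/-- The outgoing operator De d_r - 2 i K. -/
def Lv (M a om m : ℝ) (y : ℝ → S) (r : ℝ) : S :=
  (De M a r : ℂ) • deriv y r - ((2 * K a r om m : ℝ) : ℂ) • I • y r

/-- The multiplier applied to a curve. -/
def Xu (b ch h : Fm) (M a om m : ℝ) (u : ℝ → S) (r : ℝ) : S :=
  X (b M a r om m) (ch M a r om m) (h M a r om m) (u r) (deriv u r)

end curves

/-- The uncertainty estimate: half a derivative is gained from D and ka. -/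
def UNC : Prop :=
  ∀ M0 a0 x x' y' y : ℝ, a0 ≠ 0 → |a0| < M0 → rp M0 a0 < x → x < x' → x' ≤ y' → y' < y →
    ∀ ε : ℝ, 0 < ε → ∃ C dl : ℝ, 0 ≤ C ∧ 0 < dl ∧ ∀ M a : ℝ, |M - M0| < dl → |a - a0| < dl →
    ∀ (S : Type) [NormedAddCommGroup S] [InnerProductSpace ℂ S] (om m : ℝ) (z : ℝ → S),
      ContDiff ℝ ∞ z → (∫ r in x'..y', lam om m * ‖z r‖ ^ 2) ≤
        ε * (∫ r in x..y, lam om m * (‖D M a om m z r‖ ^ 2 + ka M a r om m ^ 2 * ‖z r‖ ^ 2)) +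
        C * ∫ r in x..y, ‖z r‖ ^ 2

/-- The bulk estimate, the energy estimate and the two couplings for the scalar operator. -/
def MODE0 : Prop :=
  ∀ M0 a0 rm : ℝ, a0 ≠ 0 → |a0| < M0 → ∀ f, Slope M0 a0 rm f →
    ∃ (n : ℕ) (rb q2 q3 Rs : ℝ), 2 ≤ n ∧ rm ≤ rb ∧ rb < rp M0 a0 ∧ rp M0 a0 < q2 ∧ q2 ≤ q3 ∧
      q3 < Rs ∧
    ∀ r0 R0 : ℝ, rb ≤ r0 → r0 < rp M0 a0 → Rs ≤ R0 → ∃ C0 : ℝ, 0 ≤ C0 ∧ ∀ R1 : ℝ, 4 * R0 ≤ R1 →
    ∃ (l : List Tm) (C1 dl : ℝ), 0 ≤ C1 ∧ 0 < dl ∧ (∀ τ ∈ l, τ.Ok n r0 (2 * R1)) ∧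
    ∀ M a : ℝ, |M - M0| < dl → |a - a0| < dl →
    ∀ (S : Type) [NormedAddCommGroup S] [InnerProductSpace ℂ S] (G : Ang S), G.Is → |G.s| = 2 →
    ∀ om m : ℝ,
      (∀ u, G.Md m u →
        (∫ r in rp M0 a0..(3 * R1 / 2), lam om m ^ n *
          (‖D M a om m u r‖ ^ 2 / r ^ 4 + ka M a r om m ^ 2 * ‖u r‖ ^ 2 / r ^ 6)) +
        (∫ r in rp M0 a0..q2, lam om m ^ n * d1 G om m u r) +
        (∫ r in q3..(4 * R0), lam om m ^ n * d1 G om m u r) ≤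
        -pair l M a om m r0 (2 * R1) (G.P 0 G.s M a om m u) u +
        C0 * (∫ r in R1..(2 * R1), R1 ^ (-3 : ℝ) * (lam om m ^ n * ‖Lv M a om m u r‖ ^ 2)) +
        C1 * ∫ r in r0..(2 * R1), (lam om m ^ n * ‖u r‖ ^ 2 + d1 G om m u r)) ∧
      (∀ u H, G.Md m u → ContDiff ℝ ∞ H →
        (∫ r in rp M0 a0..(4 * R0), lam om m ^ n * d1 G om m u r) ≤
        -pair l M a om m r0 (2 * R1) H u +
        C1 * ∫ r in r0..(2 * R1),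
          (lam om m ^ n * ‖H r - Nc G (fun r => f (M, a, r)) M a om m u r‖ ^ 2 +
            lam om m ^ (n - 1) * (d1 G om m u r + ‖G.P 0 G.s M a om m u r‖ ^ 2))) ∧
      (∀ y : ℝ → S, ContDiff ℝ ∞ y →
        |pair l M a om m r0 (2 * R1) (fun r => (om : ℂ) • I • y r) (deriv y)| ≤
        C1 * ∫ r in r0..(2 * R1), lam om m ^ n * (‖deriv y r‖ ^ 2 + lam om m * ‖y r‖ ^ 2)) ∧
      (∀ y : ℝ → S, ContDiff ℝ ∞ y →
        |pair l M a om m r0 (2 * R1) (fun r => ((om * De M a r : ℝ) : ℂ) • I • y r)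
          (fun r => Lv M a om m y r + ((2 * r - 2 * M : ℝ) : ℂ) • y r)| ≤
        C1 * ∫ r in r0..(2 * R1), lam om m ^ n * (‖deriv y r‖ ^ 2 + lam om m * ‖y r‖ ^ 2)) ∧
      ∀ H H' u : ℝ → S, ContDiff ℝ ∞ H → ContDiff ℝ ∞ H' → ContDiff ℝ ∞ u → ∀ p q : ℝ,
        pair l M a om m r0 (2 * R1) (fun r => (p : ℂ) • H r + (q : ℂ) • H' r) u =
          p * pair l M a om m r0 (2 * R1) H u + q * pair l M a om m r0 (2 * R1) H' u

end Vale.Agent.P354M0
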