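import Vale.Agent.P354M0.Asm
import Vale.Agent.P354M0.Cpl
import Vale.Agent.P354MU.Main

/-! The estimates for the scalar operator at one real frequency. -/

namespace Vale.Agent.P354M0

theorem mode0 : MODE0 :=
  mode0_of P354MU.mu fun _ _ _ _ _ _ _ M0 a0 hb hch hh hχ hx hy hxy =>
    cpl hb hch hh hχ hx hy hxy M0 a0

end Vale.Agent.P354M0
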