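import Vale.Agent.P354M0.Blk
import Vale.Agent.P354ME.Main

/-! The bulk estimate and the assembly of MODE0. -/

open scoped ContDiff InnerProductSpace
open Set intervalIntegral
open Complex (I)
open Vale.Agent.P354BF Vale.Agent.P354XT Vale.Agent.P354RP
open Vale.Agent.P354XN hiding up
open Vale.Agent.P354XH (Fm HP K ka el Bk Qf En dr)

noncomputable section

namespace Vale.Agent.P354M0

variable {M0 a0 : ℝ} {f : ℝ × ℝ × ℝ → ℝ} {n : ℕ} {b ch h : Fm} {rb q2 q3 Rs c C δ : ℝ}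

theorem pt_d {c A R r l B p q E an lp : ℝ} (hc : 0 < c) (hA : 0 ≤ A) (hr : 0 < r) (hR : r ≤ R)
    (hl : 0 ≤ l) (hp : 0 ≤ p) (hq : 0 ≤ q) (hlp : 0 ≤ lp) (hE : -(lp * q / 2) ≤ E)
    (han : an ≤ E + (1 / 2 + A) * (lp * q)) (hB : c * l * ((p + lp * q + E) / r) ≤ B) :
    l * (p + (1 + lp) * q + an) ≤ (2 + 2 * A) * R / c * B + l * q := by
  have w0 : lp * q / 2 ≤ p + lp * q + E := by linarith
  have w1 : 0 ≤ lp * q := mul_nonneg hlp hq
  have w2 : p + (1 + lp) * q + an ≤ (2 + 2 * A) * (p + lp * q + E) + q := by nlinarith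
  have w3 : c * l * ((p + lp * q + E) / R) ≤ c * l * ((p + lp * q + E) / r) := by
    gcongr; linarith
  have R0 : 0 < R := hr.trans_le hR
  have w4 := mul_le_mul_of_nonneg_left (w3.trans hB) (show 0 ≤ (2 + 2 * A) * R / c by positivity)
  have e : (2 + 2 * A) * R / c * (c * l * ((p + lp * q + E) / R)) =
      l * ((2 + 2 * A) * (p + lp * q + E)) := by field_simp
  nlinarith [mul_le_mul_of_nonneg_left w2 hl]

theorem F_le {S : Type} [NormedAddCommGroup S] [InnerProductSpace ℂ S] (G : Ang S) (u : ℝ → S)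
    {M a om m r B1 B2 B3 : ℝ} (rb0 : 0 < rb) (r1 : rb ≤ r) (b1 : |De M a r| ≤ B1)
    (b2 : |K a r om m| ≤ B2 * fq om m ^ 1) (b3 : |ka M a r om m| ≤ B3 * fq om m ^ 1) :
    ‖D M a om m u r‖ ^ 2 / r ^ 4 + ka M a r om m ^ 2 * ‖u r‖ ^ 2 / r ^ 6 ≤
      ((2 * B1 ^ 2 + 2 * B2 ^ 2) / rb ^ 4 + B3 ^ 2 / rb ^ 6) * d1 G om m u r := by
  have lp := lam_pos om m
  have u1 := pow_le_pow_left₀ (abs_nonneg _) b1 2
  have u2 := pow_le_pow_left₀ (abs_nonneg _) b2 2
  have u3 := pow_le_pow_left₀ (abs_nonneg _) b3 2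
  rw [sq_abs] at u1
  rw [sq_abs, pow_one, mul_pow, fq_sq] at u2 u3
  have d0 := An_nonneg (A := G) (u r)
  have dp : ‖deriv u r‖ ^ 2 ≤ d1 G om m u r := by
    rw [d1_eq]; linarith [mul_nonneg lp.le (sq_nonneg ‖u r‖)]
  have dq : lam om m * ‖u r‖ ^ 2 ≤ d1 G om m u r := by
    rw [d1_eq]; linarith [sq_nonneg ‖deriv u r‖]
  have v1 : ‖D M a om m u r‖ ^ 2 ≤ (2 * B1 ^ 2 + 2 * B2 ^ 2) * d1 G om m u r := by
    have t1 := P354ME.nsq_sub ((De M a r : ℂ) • deriv u r) ((K a r om m : ℂ) • I • u r)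
    have t2 := P354ME.nsq_add ((De M a r : ℂ) • deriv u r) ((K a r om m : ℂ) • I • u r)
    rw [P354ME.nsq_real, P354ME.nsq_real, norm_I] at t1 t2
    have t3 := mul_le_mul u1 dp (sq_nonneg _) (sq_nonneg _)
    have t4 := mul_le_mul_of_nonneg_right u2 (sq_nonneg ‖u r‖)
    have t5 := mul_le_mul_of_nonneg_left dq (sq_nonneg B2)
    rw [D, t1]
    linarith [sq_nonneg ‖(De M a r : ℂ) • deriv u r + (K a r om m : ℂ) • I • u r‖]
  have v2 : ka M a r om m ^ 2 * ‖u r‖ ^ 2 ≤ B3 ^ 2 * d1 G om m u r := by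
    linarith [mul_le_mul_of_nonneg_right u3 (sq_nonneg ‖u r‖),
      mul_le_mul_of_nonneg_left dq (sq_nonneg B3)]
  have d2 := d1_nonneg (G := G) (u := u) om m r
  calc _ ≤ (2 * B1 ^ 2 + 2 * B2 ^ 2) * d1 G om m u r / rb ^ 4 +
        B3 ^ 2 * d1 G om m u r / rb ^ 6 := by gcongr
    _ = _ := by ring

theorem pt_e {t l L F B CF k k' e d : ℝ} (ht : 0 ≤ t) (hL : L ≤ t * (1 + l)) (hF : 0 ≤ F)
    (h1 : F ≤ (CF + 1) * d) (h2 : l * F ≤ k * B + e) (hB : 0 ≤ k' * B) (he : 0 ≤ e)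
    (hC : 0 ≤ CF) : L * F ≤ t * (k + k') * (1 * B) + t * (CF + 1) * (e + d) := by
  have a1 := mul_le_mul_of_nonneg_right hL hF
  have a2 : (1 + l) * F ≤ (k + k') * (1 * B) + (CF + 1) * (e + d) := by
    nlinarith [mul_nonneg hC he]
  nlinarith [mul_le_mul_of_nonneg_left a2 ht]

theorem Mu.bulk (H : Mu M0 a0 f n b ch h rb q2 q3 Rs c C δ) (h0 : |a0| < M0) {r0 x' R0 : ℝ}
    (h1 : rb ≤ r0) (h2 : r0 < x') (h3 : x' < rp M0 a0) (h4 : Rs ≤ R0) :
    ∃ κ C0, 0 < κ ∧ 0 ≤ C0 ∧ ∀ R, 4 * R0 ≤ R →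
    ∃ C1 dl : ℝ, 0 ≤ C1 ∧ 0 < dl ∧ ∀ M a : ℝ, |M - M0| < dl → |a - a0| < dl →
    ∀ (S : Type) [NormedAddCommGroup S] [InnerProductSpace ℂ S] (G : Ang S), G.Is → |G.s| = 2 →
    ∀ (om m : ℝ) (u : ℝ → S), G.Md m u →
      κ * ((∫ r in rp M0 a0..(3 * R / 2), lam om m ^ n *
          (‖D M a om m u r‖ ^ 2 / r ^ 4 + ka M a r om m ^ 2 * ‖u r‖ ^ 2 / r ^ 6)) +
        (∫ r in rp M0 a0..q2, lam om m ^ n * d1 G om m u r) +
        (∫ r in q3..(4 * R0), lam om m ^ n * d1 G om m u r)) ≤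
        -(∫ r in r0..(2 * R), chi r0 x' R r *
          ri (G.P 0 G.s M a om m u r) (Xu b ch h M a om m u r)) +
        C0 * (∫ r in R..(2 * R), R ^ (-3 : ℝ) * (lam om m ^ n * ‖Lv M a om m u r‖ ^ 2)) +
        C1 * ∫ r in r0..(2 * R), (lam om m ^ n * ‖u r‖ ^ 2 + d1 G om m u r) := by
  obtain ⟨o1, o2, o3, o4, o5, o6⟩ := H.ord
  have M0p := P354XH.M_pos h0
  have cp := H.cpos
  have c' : 0 < min c (1 / 2) := lt_min cp (by norm_num)
  have rb0 : 0 < rb := by linarith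
  have R00 : 0 < R0 := by linarith
  obtain ⟨C0, p0, H0⟩ := H.cur h0 h1 h2 h3
  obtain ⟨κ, hκ⟩ : ∃ x, x = 2 ^ (n - 1) * (1 / c + (2 + 2 * (|a0| + 1)) * (4 * R0) / c) := ⟨_, rfl⟩
  have κ0 : 0 < κ := by rw [hκ]; positivity
  refine ⟨1 / (6 * κ), C0, by positivity, p0, fun R hR => ?_⟩
  have Rp : 0 < R := by linarith
  obtain ⟨C1, dl, p1, hdl, H1⟩ := H0 R (by linarith)
  obtain ⟨B1, s1, b1⟩ := bd3 P354XH.smooth_De.continuous M0 a0 r0 (2 * R)
  obtain ⟨B2, s2, b2⟩ := hp_bd HP.K M0 a0 r0 (2 * R)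
  obtain ⟨B3, s3, b3⟩ := hp_bd HP.ka M0 a0 r0 (2 * R)
  obtain ⟨CF, hCF⟩ : ∃ x, x = (2 * B1 ^ 2 + 2 * B2 ^ 2) / rb ^ 4 + B3 ^ 2 / rb ^ 6 := ⟨_, rfl⟩
  have F0 : 0 ≤ CF := by rw [hCF]; positivity
  refine ⟨C1 + 1 / (6 * κ) * (3 * (2 ^ (n - 1) * (CF + 1))), min dl (min δ 1), by positivity,
    lt_min hdl (lt_min H.dpos one_pos), fun M a a1 a2 S _ _ G hG hs om m u hu => ?_⟩
  have key := H1 M a (a1.trans_le (min_le_left _ _)) (a2.trans_le (min_le_left _ _)) S G hG hs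
    om m u hu
  have a3 := a1.trans_le ((min_le_right _ _).trans (min_le_left _ _))
  have a4 := a2.trans_le ((min_le_right _ _).trans (min_le_left _ _))
  have a7 := a1.le.trans ((min_le_right _ _).trans (min_le_right _ _))
  have a8 := a2.le.trans ((min_le_right _ _).trans (min_le_right _ _))
  have cχ := (chi_sm r0 x' R).continuous
  have cB := cont_Bv hG hu.1 H.hb H.hch H.hh (Ts a0 c) M a om m
  have cd := cont_d1 hu.1 om m
  have cu := hu.1.cont
  have cD := cont_D hu.1.cd M a om m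
  have ck := (cd_ka M a om m).continuous
  have l0 : 0 ≤ (om ^ 2 + m ^ 2) ^ n := by positivity
  have l1 := lam_ge om m n
  have l2 := lam_le om m n
  have lp := lam_pos om m
  have hE : ∀ r, _ ≤ Es G (Ts a0 c) a om m (u r) ∧ An G (u r) ≤ Es G (Ts a0 c) a om m (u r) + _ :=
    fun r => Es_ge hG hs c' (abs_a a8) (om := om) (hu.2 r)
  have w1 := fun r (hr : rb ≤ r) =>
    Bv_1 (hE r).1 fun x L hL => H.bulk1 M a a3 a4 om m r hr x L (lE hL)
  have w0 : ∀ r, rb ≤ r → 0 ≤ Bv G b ch h (Ts a0 c) M a om m u r := fun r hr =>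
    le_trans (by positivity) (w1 r hr)
  have cE : Continuous fun r => lam om m ^ n * ‖u r‖ ^ 2 + d1 G om m u r := by fun_prop
  have E0 : ∀ r, 0 ≤ lam om m ^ n * ‖u r‖ ^ 2 := fun r => by positivity
  have cψ : Continuous fun r => κ * (chi r0 x' R r * Bv G b ch h (Ts a0 c) M a om m u r) +
      2 ^ (n - 1) * (CF + 1) * (lam om m ^ n * ‖u r‖ ^ 2 + d1 G om m u r) := by fun_prop
  have ψ0 : ∀ r ∈ Icc r0 (2 * R), 0 ≤ κ * (chi r0 x' R r * Bv G b ch h (Ts a0 c) M a om m u r) +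
      2 ^ (n - 1) * (CF + 1) * (lam om m ^ n * ‖u r‖ ^ 2 + d1 G om m u r) := fun r hr => by
    have := chi_nonneg r0 x' R r
    have := w0 r (h1.trans hr.1)
    have := d1_nonneg (G := G) (u := u) om m r
    positivity
  have i1 := sub_le (φ := fun r => lam om m ^ n *
      (‖D M a om m u r‖ ^ 2 / r ^ 4 + ka M a r om m ^ 2 * ‖u r‖ ^ 2 / r ^ 6))
    (x := rp M0 a0) (y := 3 * R / 2) (by linarith) (by linarith) (by linarith)
    (continuousOn_const.mul (ContinuousOn.add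
      (ContinuousOn.div (by fun_prop) (by fun_prop) fun r hr => pow_ne_zero _ (by linarith [hr.1]))
      (ContinuousOn.div (by fun_prop) (by fun_prop) fun r hr => pow_ne_zero _ (by linarith [hr.1]))))
    cψ ψ0 fun r hr => by
    have r1 : rb ≤ r := by linarith [hr.1]
    have r2 : r ∈ Icc r0 (2 * R) := ⟨by linarith [hr.1], by linarith [hr.2]⟩
    have v3 := F_le G u rb0 r1 (b1 M a a7 a8 r r2)
      (b2 M a a7 a8 r r2 om m _ (fq_om om m) (fq_m om m))
      (b3 M a a7 a8 r r2 om m _ (fq_om om m) (fq_m om m))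
    have v4 := w1 r r1
    rw [← hCF] at v3
    rw [chi_one h2 Rp (by linarith [hr.1]) hr.2, hκ]
    refine pt_e (by positivity) l2 (by positivity)
      (by linarith [d1_nonneg (G := G) (u := u) om m r]) (le_add_of_le_of_nonneg ?_ (E0 r))
      (mul_nonneg (by positivity) (w0 r r1)) (E0 r) F0
    rw [one_div, ← div_eq_inv_mul, le_div_iff₀ cp]; linarith
  have i2 : ∀ r, rp M0 a0 ≤ r → r ≤ 4 * R0 → r ≤ q2 ∨ q3 ≤ r → lam om m ^ n * d1 G om m u r ≤
      κ * (chi r0 x' R r * Bv G b ch h (Ts a0 c) M a om m u r) +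
      2 ^ (n - 1) * (CF + 1) * (lam om m ^ n * ‖u r‖ ^ 2 + d1 G om m u r) := fun r g1 g2 g3 => by
    have r1 : rb ≤ r := by linarith
    have v4 := Bv_2 (hE r).1 fun x L hL => H.bulk2 M a a3 a4 om m r r1 g3 x L (lE hL)
    have t0 : 0 ≤ (om ^ 2 + m ^ 2) * ‖u r‖ ^ 2 := by positivity
    have t1 := mul_le_mul_of_nonneg_right (min_le_right c (1 / 2)) t0
    have t2 := mul_nonneg (P354XH.el_nonneg a om m) (sq_nonneg ‖u r‖)
    have v5 := pt_d (A := |a0| + 1) (an := An G (u r)) cp (by positivity) (by linarith) g2 l0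
      (sq_nonneg _) (sq_nonneg _) (by positivity) (by linarith [(hE r).1])
      (by linarith [(hE r).2]) v4
    rw [← add_assoc 1, ← lam, ← d1_eq] at v5
    have d2 := d1_nonneg (G := G) (u := u) om m r
    rw [chi_one h2 Rp (by linarith) (by linarith), hκ, add_comm (1 / c)]
    exact pt_e (by positivity) l2 d2 (by linarith [mul_nonneg F0 d2])
      (by linarith [mul_le_mul_of_nonneg_right l1 (sq_nonneg ‖u r‖)])
      (mul_nonneg (by positivity) (w0 r r1)) (E0 r) F0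
  have cφ : Continuous fun r => lam om m ^ n * d1 G om m u r := by fun_prop
  have i3 := sub_le (x := rp M0 a0) (y := q2) (by linarith) o3.le (by linarith) cφ.continuousOn
    cψ ψ0 fun r hr => i2 r hr.1 (by linarith [hr.2]) (Or.inl hr.2)
  have i4 := sub_le (x := q3) (y := 4 * R0) (by linarith) (by linarith) (by linarith)
    cφ.continuousOn cψ ψ0 fun r hr => i2 r (by linarith [hr.1]) hr.2 (Or.inr hr.1)
  rw [int_add (by fun_prop) (by fun_prop), integral_const_mul κ,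
    integral_const_mul (2 ^ (n - 1) * (CF + 1))] at i1 i3 i4
  have i5 : (∫ r in r0..(2 * R), lam om m ^ n * ‖u r‖ ^ 2) ≤
      ∫ r in r0..(2 * R), (lam om m ^ n * ‖u r‖ ^ 2 + d1 G om m u r) :=
    integral_mono_on (by linarith) (Continuous.intervalIntegrable (by fun_prop) _ _)
      (cE.intervalIntegrable _ _) fun r _ => le_add_of_nonneg_right (d1_nonneg om m r)
  have i6 := mul_le_mul_of_nonneg_left (add_le_add (add_le_add i1 i3) i4)
    (show 0 ≤ 1 / (6 * κ) by positivity)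
  have e : 1 / (6 * κ) * κ = 1 / 6 := by field_simp
  have i7 := mul_le_mul_of_nonneg_left i5 p1
  refine i6.trans ?_
  generalize 1 / (6 * κ) = k at *
  linear_combination key + i7 +
    (3 * ∫ r in r0..(2 * R), chi r0 x' R r * Bv G b ch h (Ts a0 c) M a om m u r) * e

/-- The two couplings. -/
def CPL : Prop :=
  ∀ (n : ℕ) (b ch h : Fm) (χ : ℝ → ℝ) (x y M0 a0 : ℝ), HP (2 * n) b → HP (2 * n + 1) ch →
    HP (2 * n) h → ContDiff ℝ ∞ χ → χ x = 0 → χ y = 0 → x ≤ y → ∃ C, 0 ≤ C ∧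
    ∀ M a : ℝ, |M - M0| ≤ 1 → |a - a0| ≤ 1 →
    ∀ (S : Type) [NormedAddCommGroup S] [InnerProductSpace ℂ S] (om m : ℝ) (v : ℝ → S),
      ContDiff ℝ ∞ v →
      |∫ r in x..y, χ r * ri ((om : ℂ) • I • v r) (Xu b ch h M a om m (deriv v) r)| ≤
        C * (∫ r in x..y, lam om m ^ n * (‖deriv v r‖ ^ 2 + lam om m * ‖v r‖ ^ 2)) ∧
      |∫ r in x..y, χ r * ri (((om * De M a r : ℝ) : ℂ) • I • v r) (Xu b ch h M a om m
        (fun r => Lv M a om m v r + ((2 * r - 2 * M : ℝ) : ℂ) • v r) r)| ≤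
        C * ∫ r in x..y, lam om m ^ n * (‖deriv v r‖ ^ 2 + lam om m * ‖v r‖ ^ 2)

theorem scale {κ k L P E E' : ℝ} (hk : 0 < k) (h1 : 1 / k ≤ κ) (hL : 0 ≤ L)
    (h : k * L ≤ -P + E) (hE : κ * E ≤ E') : L ≤ -(κ * P) + E' := by
  have h2 : 1 ≤ κ * k := (div_le_iff₀ hk).1 h1
  have h3 : 0 ≤ κ := le_trans (by positivity) h1
  nlinarith [mul_le_mul_of_nonneg_left h h3, mul_le_mul_of_nonneg_right h2 hL]

theorem mode0_of (mu : MU) (cpl : CPL) : MODE0 := by
  intro M0 a0 rm ha h0 f hf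
  obtain ⟨n, b, ch, h, rb, q2, q3, Rs, c, C, δ, hm, H⟩ := mu M0 a0 rm ha h0 f hf
  obtain ⟨o1, o2, o3, o4, o5, o6⟩ := H.ord
  refine ⟨n, rb, q2, q3, Rs, H.hn, hm, o2, o3, o4, o5, fun r0 R0 h1 h2 h3 => ?_⟩
  have M0p := P354XH.M_pos h0
  obtain ⟨x', x1, x2⟩ := exists_between h2
  obtain ⟨N, rfl⟩ : ∃ N, n = N + 1 := ⟨n - 1, by have := H.hn; omega⟩
  obtain ⟨k, C0, k0, p0, HB⟩ := H.bulk h0 h1 x1 x2 h3
  obtain ⟨c1, c10, HE⟩ := P354ME.ene (N := N) H.hb H.hch H.hh hf.sm (M0 := M0) (a0 := a0)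
    (x := r0) (y := 4 * R0) 2 (by linarith) fun r hr => H.energy r (h1.trans hr)
  obtain ⟨κ, κ1, κ2⟩ : ∃ κ, 1 / k ≤ κ ∧ 1 / c1 ≤ κ := ⟨max _ _, le_max_left _ _, le_max_right _ _⟩
  have κ0 : 0 ≤ κ := le_trans (by positivity) κ1
  refine ⟨κ * C0, by positivity, fun R hR => ?_⟩
  have Rp : 0 < R := by linarith
  have hxy : r0 ≤ 2 * R := by linarith
  obtain ⟨C1, d1', p1, e1, HB⟩ := HB R hR
  obtain ⟨c2, C2, d2, c20, p2, e2, HE⟩ := HE (2 * R) (by linarith) _ (chi_sm r0 x' R)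
    (chi_nonneg r0 x' R) (chi_l x1 le_rfl) (chi_r Rp le_rfl)
  obtain ⟨C3, p3, HC⟩ := cpl (N + 1) b ch h _ r0 (2 * R) M0 a0 H.hb H.hch H.hh (chi_sm r0 x' R)
    (chi_l x1 le_rfl) (chi_r Rp le_rfl) hxy
  obtain ⟨l, ol, pl⟩ := ex_list H.hb H.hch H.hh (χ := fun r => κ * chi r0 x' R r)
    (contDiff_const.mul (chi_sm r0 x' R)) (x := r0) (y := 2 * R) fun r hr => by
      rcases not_and_or.1 hr with g | g
      · rw [chi_l x1 (by linarith), mul_zero]
      · rw [chi_r Rp (by linarith), mul_zero]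
  simp only [mul_assoc κ, integral_const_mul] at pl
  refine ⟨l, κ * (C1 + C2 + C3), min d1' (min d2 1), by positivity, lt_min e1 (lt_min e2 one_pos),
    ol, fun M a a1 a2 S _ _ G hG hs om m => ?_⟩
  have a3 := a1.trans_le ((min_le_right _ _).trans (min_le_left _ _))
  have a4 := a2.trans_le ((min_le_right _ _).trans (min_le_left _ _))
  have a7 := a1.le.trans ((min_le_right _ _).trans (min_le_right _ _))
  have a8 := a2.le.trans ((min_le_right _ _).trans (min_le_right _ _))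
  have lp := lam_pos om m
  have i0 : ∀ (u : ℝ → S) x y, x ≤ y → 0 ≤ ∫ r in x..y, lam om m ^ (N + 1) * d1 G om m u r :=
    fun u x y hh => integral_nonneg hh fun r _ => mul_nonneg (by positivity) (d1_nonneg om m r)
  have sc : ∀ {P E : ℝ}, 0 ≤ E → |P| ≤ C3 * E → |κ * P| ≤ κ * (C1 + C2 + C3) * E := fun hE hP => by
    rw [abs_mul, abs_of_nonneg κ0, mul_assoc]
    refine mul_le_mul_of_nonneg_left (hP.trans ?_) κ0
    gcongr; linarith
  refine ⟨fun u hu => ?_, fun u J hu hJ => ?_, fun y hy => ?_, fun y hy => ?_,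
    fun J J' u hJ hJ' hu p q => ?_⟩
  · rw [pl M a om m S _ u (hG.sm_P hu.1 _ _ _ _ _ _).cont hu.1.cd, add_assoc (-_)]
    have := HB M a (a1.trans_le (min_le_left _ _)) (a2.trans_le (min_le_left _ _)) S G hG hs om m
      u hu
    rw [add_assoc (-_)] at this
    refine scale k0 κ1 (add_nonneg (add_nonneg (integral_nonneg (by linarith) fun r _ => by
      positivity) (i0 u _ _ o3.le)) (i0 u _ _ (by linarith))) this ?_
    have : 0 ≤ ∫ r in r0..(2 * R), (lam om m ^ (N + 1) * ‖u r‖ ^ 2 + d1 G om m u r) :=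
      integral_nonneg hxy fun r _ => add_nonneg (by positivity) (d1_nonneg om m r)
    nlinarith [mul_nonneg (mul_nonneg κ0 (add_nonneg p2 p3)) this]
  · rw [pl M a om m S _ u hJ.continuous hu.1.cd]
    have t := HE M a a3 a4 S G hG hs.le G.s 0 hs.le (by norm_num) om m u J hu hJ.continuous
    have cd := cont_d1 hu.1 om m
    have cχ := (chi_sm r0 x' R).continuous
    have n0 : ∀ r, 0 ≤ chi r0 x' R r * (lam om m ^ (N + 1) * d1 G om m u r) := fun r =>
      mul_nonneg (chi_nonneg _ _ _ _) (mul_nonneg (by positivity) (d1_nonneg om m r))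
    have t1 := sub_le (φ := fun r => lam om m ^ (N + 1) * d1 G om m u r)
      (ψ := fun r => chi r0 x' R r * (lam om m ^ (N + 1) * d1 G om m u r)) (x0 := r0)
      (x := rp M0 a0) (y := 4 * R0) (y0 := 4 * R0) h2.le (by linarith) le_rfl (by fun_prop)
      (by fun_prop) (fun r _ => n0 r) fun r hr => by
        rw [chi_one x1 Rp (by linarith [hr.1]) (by linarith [hr.2]), one_mul]
    have t2 := mul_nonneg c20.le (integral_nonneg (μ := MeasureTheory.volume) hxy fun r _ => n0 r)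
    refine scale c10 κ2 (i0 u _ _ (by linarith))
      (((mul_le_mul_of_nonneg_left t1 c10.le).trans (le_add_of_nonneg_right t2)).trans t) ?_
    have t3 : 0 ≤ ∫ r in r0..(2 * R), P354ME.Er G N f G.s 0 M a om m u J r :=
      integral_nonneg hxy fun r _ => by
        have := d1_nonneg (G := G) (u := u) om m r
        unfold P354ME.Er; positivity
    simp only [Nat.add_sub_cancel, mul_add (lam om m ^ N), ← add_assoc]
    unfold P354ME.Er at *
    nlinarith [mul_nonneg (mul_nonneg κ0 (add_nonneg p1 p3)) t3]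
  · rw [pl M a om m S _ _ ?_ (smD hy)]
    · exact sc (integral_nonneg hxy fun r _ => by positivity) (HC M a a7 a8 S om m y hy).1
    · exact (hy.continuous.const_smul I).const_smul (om : ℂ)
  · rw [pl M a om m S _ _ ?_ ?_]
    · exact sc (integral_nonneg hxy fun r _ => by positivity) (HC M a a7 a8 S om m y hy).2
    · exact ((cd_C (contDiff_const.mul (cd_De M a))).smul (hy.const_smul I)).continuous
    · exact (((cd_C (cd_De M a)).smul (smD hy)).sub ((cd_C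
        (contDiff_const.mul (cd_K a om m))).smul (hy.const_smul I))).add
        ((cd_C (c := fun r => 2 * r - 2 * M) (by fun_prop)).smul hy)
  · have cX := cont_Xu H.hb H.hch H.hh hu M a om m
    have cχ := (chi_sm r0 x' R).continuous
    have r1 := cont_ri hJ.continuous cX
    have r2 := cont_ri hJ'.continuous cX
    have r3 : Continuous fun r => (p : ℂ) • J r + (q : ℂ) • J' r :=
      (hJ.continuous.const_smul (p : ℂ)).add (hJ'.continuous.const_smul (q : ℂ))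
    rw [pl M a om m S _ u r3 hu, pl M a om m S _ u hJ.continuous hu,
      pl M a om m S _ u hJ'.continuous hu, mul_left_comm p, mul_left_comm q, ← mul_add,
      ← integral_const_mul p, ← integral_const_mul q, ← int_add (by fun_prop) (by fun_prop)]
    congr 1
    refine integral_congr fun r _ => ?_
    simp only [ri_add_l, ri_real_l]
    ring

end Vale.Agent.P354M0
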