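import Vale.Agent.P354M0.Cut

/-! The bulk estimate for the scalar operator. -/

open scoped ContDiff InnerProductSpace
open Set intervalIntegral
open Complex (I)
open Vale.Agent.P354BF Vale.Agent.P354XT Vale.Agent.P354RP
open Vale.Agent.P354XN hiding up
open Vale.Agent.P354XH (Fm HP K ka el Bk Qf En dr)

noncomputable section

namespace Vale.Agent.P354M0

variable {M0 a0 : ℝ} {f : ℝ × ℝ × ℝ → ℝ} {n : ℕ} {b ch h : Fm} {rb q2 q3 Rs c C δ : ℝ}

theorem hp_bd2 {F : Fm} (hF : HP (2 * n) F) (M0 a0 x y : ℝ) : ∃ C, 0 ≤ C ∧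
    ∀ M a, |M - M0| ≤ 1 → |a - a0| ≤ 1 → ∀ r ∈ Icc x y, ∀ om m,
      |F M a r om m| ≤ C * (om ^ 2 + m ^ 2) ^ n := by
  obtain ⟨C, h0, H⟩ := hp_bd hF M0 a0 x y
  refine ⟨C, h0, fun M a h1 h2 r hr om m => ?_⟩
  have := H M a h1 h2 r hr om m √(om ^ 2 + m ^ 2)
    (Real.abs_le_sqrt (by nlinarith [sq_nonneg m])) (Real.abs_le_sqrt (by nlinarith [sq_nonneg om]))
  rwa [pow_mul, Real.sq_sqrt (by positivity)] at this

theorem lam_ge (om m : ℝ) (n : ℕ) : (om ^ 2 + m ^ 2) ^ n ≤ lam om m ^ n :=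
  pow_le_pow_left₀ (by positivity) (by unfold lam; linarith) n

theorem lam_le (om m : ℝ) (n : ℕ) : lam om m ^ n ≤ 2 ^ (n - 1) * (1 + (om ^ 2 + m ^ 2) ^ n) := by
  have := add_pow_le (a := (1 : ℝ)) (b := om ^ 2 + m ^ 2) zero_le_one (by positivity) n
  rwa [one_pow, ← add_assoc] at this

theorem abs_a {a a0 : ℝ} (h : |a - a0| ≤ 1) : |a| ≤ |a0| + 1 := by
  linarith [abs_sub_abs_le_abs_sub a a0]

/-- The shift of the angular form. -/
def Ts (a0 c : ℝ) : ℝ := 16 * (|a0| + 1) ^ 2 / min c (1 / 2)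

theorem lE {a om m L : ℝ}
    (hL : el a om m - min c (1 / 2) * (om ^ 2 + m ^ 2) ≤ L) :
    el a om m - c * (om ^ 2 + m ^ 2) ≤ L := by
  have := mul_le_mul_of_nonneg_right (min_le_left c (1 / 2)) (show 0 ≤ om ^ 2 + m ^ 2 by positivity)
  linarith

theorem Mu.cur (H : Mu M0 a0 f n b ch h rb q2 q3 Rs c C δ) (h0 : |a0| < M0) {r0 x' : ℝ}
    (h1 : rb ≤ r0) (h2 : r0 < x') (h3 : x' < rp M0 a0) : ∃ C0, 0 ≤ C0 ∧ ∀ R, Rs ≤ R →
    ∃ C1 dl : ℝ, 0 ≤ C1 ∧ 0 < dl ∧ ∀ M a : ℝ, |M - M0| < dl → |a - a0| < dl →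
    ∀ (S : Type) [NormedAddCommGroup S] [InnerProductSpace ℂ S] (G : Ang S), G.Is → |G.s| = 2 →
    ∀ (om m : ℝ) (u : ℝ → S), G.Md m u →
      (∫ r in r0..(2 * R), chi r0 x' R r * Bv G b ch h (Ts a0 c) M a om m u r) / 2 ≤
        -(∫ r in r0..(2 * R), chi r0 x' R r *
          ri (G.P 0 G.s M a om m u r) (Xu b ch h M a om m u r)) +
        C0 * (∫ r in R..(2 * R), R ^ (-3 : ℝ) * (lam om m ^ n * ‖Lv M a om m u r‖ ^ 2)) +
        C1 * ∫ r in r0..(2 * R), lam om m ^ n * ‖u r‖ ^ 2 := by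
  obtain ⟨o1, o2, o3, o4, o5, o6⟩ := H.ord
  have M0p := P354XH.M_pos h0
  have cp := H.cpos
  have Cp := H.Cpos
  have c' : 0 < min c (1 / 2) := lt_min cp (by norm_num)
  have T0 : 0 ≤ Ts a0 c := by unfold Ts; positivity
  obtain ⟨k, hk, bk⟩ := up_db
  refine ⟨2 * k * (C + 1), by positivity, fun R hR => ?_⟩
  have R0 : 0 < R := by linarith
  have hxy : r0 ≤ R := by linarith
  obtain ⟨d, δ', hd, hδ', δ1, H'⟩ := unif (isCompact_Icc (a := r0) (b := x')) (M0 := M0) (a0 := a0)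
    (F := fun p => -De p.2.1 p.2.2 p.1) (by unfold De; fun_prop) fun r hr => by
      have := P354XH.rp_gt h0
      simp only [P354XH.De_eq h0]
      nlinarith [hr.1, hr.2]
  obtain ⟨B1, p1, b1⟩ := hp_bd2 H.hb M0 a0 r0 (2 * R)
  obtain ⟨B2, p2, b2⟩ := hp_bd2 H.hb.dr M0 a0 r0 (2 * R)
  obtain ⟨B3, p3, b3⟩ := hp_bd2 H.hh M0 a0 r0 (2 * R)
  obtain ⟨B4, p4, b4⟩ := hp_bd2 H.hh.dr M0 a0 r0 (2 * R)
  obtain ⟨B5, p5, b5⟩ := bd3 P354XH.smooth_De.continuous M0 a0 r0 (2 * R)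
  obtain ⟨Cb, e1, e2, e3, e4, e5⟩ : ∃ Cb, B1 ≤ Cb ∧ B2 ≤ Cb ∧ B3 ≤ Cb ∧ B4 ≤ Cb ∧ B5 ≤ Cb :=
    ⟨B1 + B2 + B3 + B4 + B5, by linarith, by linarith, by linarith, by linarith, by linarith⟩
  have pb : 0 ≤ Cb := p1.trans e1
  obtain ⟨Ca, hCa⟩ : ∃ x, x = 2 * Ts a0 c * Cb + Cb ^ 2 / (4 * (c / (2 * (2 * R) ^ 4))) := ⟨_, rfl⟩
  obtain ⟨Ci, hCi⟩ : ∃ x, x = Ts a0 c * Cb + Cb * (Cb ^ 2 / (4 * c)) := ⟨_, rfl⟩
  obtain ⟨Co, hCo⟩ : ∃ x, x = Ts a0 c * Cb + Cb ^ 2 / (4 * (1 / R ^ 2)) := ⟨_, rfl⟩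
  have pa : 0 ≤ Ca := by rw [hCa]; positivity
  have pi : 0 ≤ Ci := by rw [hCi]; positivity
  have po : 0 ≤ Co := by rw [hCo]; positivity
  have k1 : 0 ≤ k / (x' - r0) := div_nonneg hk (by linarith)
  have k2 : 0 ≤ k / (2 * R - 3 * R / 2) := div_nonneg hk (by linarith)
  refine ⟨Ca + k / (x' - r0) * Ci + k / (2 * R - 3 * R / 2) * Co, min δ δ', by positivity,
    lt_min H.dpos hδ', fun M a a1 a2 S _ _ G hG hs om m u hu => ?_⟩
  have a3 := a1.trans_le (min_le_left _ _)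
  have a4 := a2.trans_le (min_le_left _ _)
  have a5 := a1.trans_le (min_le_right _ _)
  have a6 := a2.trans_le (min_le_right _ _)
  have a7 := a5.le.trans δ1
  have a8 := a6.le.trans δ1
  have cχ := (chi_sm r0 x' R).continuous
  have cB := cont_Bv hG hu.1 H.hb H.hch H.hh (Ts a0 c) M a om m
  have cP := cont_ri (hG.sm_P hu.1 0 G.s M a om m).cont (cont_Xu H.hb H.hch H.hh hu.1.cd M a om m)
  have cL := cont_Lv hu.1.cd M a om m
  have ck := P354XH.cd (up_sm (3 * R / 2) (2 * R))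
  have cu := hu.1.cont
  have l0 : 0 ≤ (om ^ 2 + m ^ 2) ^ n := by positivity
  have l1 := lam_ge om m n
  have key := int_le (x := r0) (y := 2 * R) (Q := fun x => chi r0 x' R x *
      (Qv G b ch (Ts a0 c) M a om m u x + Ts a0 c * (b M a x om m * ‖u x‖ ^ 2) +
        h M a x om m * De M a x * ri (u x) (deriv u x)))
    (φ := fun r => (chi r0 x' R r * Bv G b ch h (Ts a0 c) M a om m u r / 2 +
      chi r0 x' R r * ri (G.P 0 G.s M a om m u r) (Xu b ch h M a om m u r)) -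
      (C + 1) / R ^ 2 * (deriv (up (3 * R / 2) (2 * R)) r *
        (lam om m ^ n * ‖Lv M a om m u r‖ ^ 2)) -
      (Ca + k / (x' - r0) * Ci + k / (2 * R - 3 * R / 2) * Co) * (lam om m ^ n * ‖u r‖ ^ 2))
    (by linarith) (Continuous.continuousOn (by fun_prop)) fun r hr => by
    refine ⟨_, (chi_d r0 x' R r).mul (cur0 hG hu.1 H.hb H.hch H.hh (Ts a0 c) M a om m r), ?_⟩
    have r1 : rb ≤ r := h1.trans hr.1
    have r2 : 0 < r := by linarith
    have hE : _ ≤ Es G (Ts a0 c) a om m (u r) :=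
      (Es_ge hG hs c' (abs_a a8) (om := om) (hu.2 r)).1
    have sc : ∀ {x B : ℝ}, B ≤ Cb → |x| ≤ B * (om ^ 2 + m ^ 2) ^ n →
        |x| ≤ Cb * (om ^ 2 + m ^ 2) ^ n := fun e hx =>
      hx.trans (mul_le_mul_of_nonneg_right e l0)
    have u1 := sc e1 (b1 M a a7 a8 r hr om m)
    have u2 := sc e2 (b2 M a a7 a8 r hr om m)
    have u3 := sc e3 (b3 M a a7 a8 r hr om m)
    have u4 := sc e4 (b4 M a a7 a8 r hr om m)
    have w1 := Bv_1 hE fun x L hL => H.bulk1 M a a3 a4 om m r r1 x L (lE hL)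
    have va := pt_a (g := h M a r om m - dr b M a r om m) cp r2 hr.2 T0 l0 u4
      ((abs_sub _ _).trans (by linarith)) (abs_ri (u r) (D M a om m u r)) (le_trans (by
        gcongr; exact le_add_of_nonneg_right (by positivity)) w1)
    rw [← hCa] at va
    have q0 : 0 ≤ (om ^ 2 + m ^ 2) ^ n * ‖u r‖ ^ 2 := by positivity
    have q1 : (om ^ 2 + m ^ 2) ^ n * ‖u r‖ ^ 2 ≤ lam om m ^ n * ‖u r‖ ^ 2 := by gcongr
    have xa := mul_le_mul_of_nonneg_left va (chi_nonneg r0 x' R r)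
    have xa' : chi r0 x' R r * (Ca * ((om ^ 2 + m ^ 2) ^ n * ‖u r‖ ^ 2)) ≤
        1 * (Ca * (lam om m ^ n * ‖u r‖ ^ 2)) := by gcongr; exact chi_le _ _ _ _
    generalize hQ : Qv G b ch (Ts a0 c) M a om m u r + Ts a0 c * (b M a r om m * ‖u r‖ ^ 2) +
      h M a r om m * De M a r * ri (u r) (deriv u r) = Q
    have xi : -(k / (x' - r0) * Ci * (lam om m ^ n * ‖u r‖ ^ 2)) ≤
        deriv (up r0 x') r * dn (3 * R / 2) (2 * R) r * Q := by
      rcases lt_or_ge x' r with g | g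
      · rw [up_dr h2 g, zero_mul, zero_mul, neg_nonpos]; have := q0.trans q1; positivity
      · have d0 : De M a r ≤ 0 := by linarith [show d ≤ -De M a r from H' M a a5 a6 r ⟨hr.1, g⟩]
        have vb := pt_b cp T0 l0 d0 ((b5 M a a7 a8 r hr).trans e5) u1 u3
          (abs_ri (u r) (deriv u r))
          (Qv_0 hE fun x L hL => H.flux0 M a a3 a4 om m r r1 d0 x L (lE hL))
        rw [← hCi, hQ] at vb
        have y0 := mul_nonneg (up_d0 h2 r) (dn_nonneg (3 * R / 2) (2 * R) r)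
        have y1 : deriv (up r0 x') r * dn (3 * R / 2) (2 * R) r ≤ k / (x' - r0) * 1 :=
          mul_le_mul (bk _ _ r h2) (dn_le _ _ _) (dn_nonneg _ _ _) k1
        have y2 := mul_le_mul_of_nonneg_left vb y0
        have y3 : deriv (up r0 x') r * dn (3 * R / 2) (2 * R) r *
            (Ci * ((om ^ 2 + m ^ 2) ^ n * ‖u r‖ ^ 2)) ≤
            k / (x' - r0) * 1 * (Ci * (lam om m ^ n * ‖u r‖ ^ 2)) := by gcongr
        linarith
    have xo : up r0 x' r * deriv (up (3 * R / 2) (2 * R)) r * Q ≤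
        (C + 1) / R ^ 2 * (deriv (up (3 * R / 2) (2 * R)) r *
          (lam om m ^ n * ‖Lv M a om m u r‖ ^ 2)) +
        k / (2 * R - 3 * R / 2) * Co * (lam om m ^ n * ‖u r‖ ^ 2) := by
      have lt : 3 * R / 2 < 2 * R := by linarith
      rcases lt_or_ge r (3 * R / 2) with g | g
      · rw [up_dl lt g, mul_zero, zero_mul, zero_mul, mul_zero, zero_add]
        have := q0.trans q1; positivity
      · have vc := pt_c Cp R0 (by linarith : R ≤ r) T0 l0 u1 u3 (abs_ri (u r) (Lv M a om m u r))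
          (Qv_1 hE fun x L hL => H.flux1 M a a3 a4 om m r (by linarith) x L (lE hL))
        rw [← hCo, ri_Lv, ← mul_assoc (h M a r om m), hQ] at vc
        have y0 := up_d0 lt r
        have y1 := bk _ _ r lt
        have y4 := up_le r0 x' r
        have y5 := up_nonneg r0 x' r
        calc _ ≤ 1 * deriv (up (3 * R / 2) (2 * R)) r *
              ((C + 1) / R ^ 2 * (lam om m ^ n * ‖Lv M a om m u r‖ ^ 2) +
                Co * (lam om m ^ n * ‖u r‖ ^ 2)) :=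
              (mul_le_mul_of_nonneg_left vc (mul_nonneg y5 y0)).trans (by gcongr)
          _ ≤ _ := by
              have := mul_le_mul_of_nonneg_right y1 (mul_nonneg po (q0.trans q1))
              linarith
    linarith
  rw [chi_l h2 le_rfl, chi_r R0 le_rfl, zero_mul, zero_mul, sub_zero,
    int_sub3 (by fun_prop) (by fun_prop) (by fun_prop), int_add (by fun_prop) (by fun_prop),
    integral_div] at key
  have cN : Continuous fun r => deriv (up (3 * R / 2) (2 * R)) r *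
      (lam om m ^ n * ‖Lv M a om m u r‖ ^ 2) := by fun_prop
  have e6 := integral_add_adjacent_intervals (μ := MeasureTheory.volume)
    (cN.intervalIntegrable r0 R) (cN.intervalIntegrable R (2 * R))
  have e7 : (∫ r in r0..R, deriv (up (3 * R / 2) (2 * R)) r *
      (lam om m ^ n * ‖Lv M a om m u r‖ ^ 2)) = 0 := by
    rw [integral_congr (g := fun _ => 0) fun r hr => ?_, integral_zero]
    rw [uIcc_of_le hxy] at hr
    simp only [up_dl (show 3 * R / 2 < 2 * R by linarith) (show r < 3 * R / 2 by linarith [hr.2]),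
      zero_mul]
  have e8 : (C + 1) / R ^ 2 * (∫ r in R..(2 * R), deriv (up (3 * R / 2) (2 * R)) r *
      (lam om m ^ n * ‖Lv M a om m u r‖ ^ 2)) ≤ 2 * k * (C + 1) *
      ∫ r in R..(2 * R), R ^ (-3 : ℝ) * (lam om m ^ n * ‖Lv M a om m u r‖ ^ 2) := by
    rw [← integral_const_mul, ← integral_const_mul]
    refine integral_mono_on (by linarith) (Continuous.intervalIntegrable (by fun_prop) _ _)
      (Continuous.intervalIntegrable (by fun_prop) _ _) fun r _ => ?_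
    have y1 := bk (3 * R / 2) (2 * R) r (by linarith)
    have := lam_pos om m
    rw [Real.rpow_neg R0.le, Real.rpow_ofNat]
    rw [show 2 * R - 3 * R / 2 = R / 2 by ring] at y1
    calc _ ≤ (C + 1) / R ^ 2 * (k / (R / 2) * (lam om m ^ n * ‖Lv M a om m u r‖ ^ 2)) := by gcongr
      _ = _ := by field_simp
  rw [← e6, e7, zero_add] at key
  linarith

end Vale.Agent.P354M0
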