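import Vale.Agent.P354M0.Pt
import Vale.Agent.P354XT.Calc

/-! The cut off, and the integrated current. -/

open scoped ContDiff InnerProductSpace
open Set intervalIntegral
open Complex (I)
open Vale.Agent.P354BF Vale.Agent.P354XT Vale.Agent.P354RP
open Vale.Agent.P354XN hiding up
open Vale.Agent.P354XH (Fm HP K ka el Bk Qf En dr)

noncomputable section

namespace Vale.Agent.P354M0

theorem up_d0 {a b : ℝ} (h : a < b) (r : ℝ) : 0 ≤ deriv (up a b) r :=
  Monotone.deriv_nonneg fun s t hst => Real.smoothTransition.monotone (by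
    have : 0 < b - a := by linarith
    gcongr)

theorem up_dl {a b r : ℝ} (h : a < b) (hr : r < a) : deriv (up a b) r = 0 := by
  have : up a b =ᶠ[nhds r] fun _ => 0 :=
    Filter.mem_of_superset (Iio_mem_nhds hr) fun s hs => up_zero h (le_of_lt hs)
  rw [this.deriv_eq, deriv_const]

theorem up_dr {a b r : ℝ} (h : a < b) (hr : b < r) : deriv (up a b) r = 0 := by
  have : up a b =ᶠ[nhds r] fun _ => 1 :=
    Filter.mem_of_superset (Ioi_mem_nhds hr) fun s hs => up_one h (le_of_lt hs)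
  rw [this.deriv_eq, deriv_const]

theorem up_db : ∃ k, 0 ≤ k ∧ ∀ a b r : ℝ, a < b → deriv (up a b) r ≤ k / (b - a) := by
  obtain ⟨k, hk, H⟩ := P354XH.upper (isCompact_Icc (a := (0 : ℝ)) (b := 1))
    (P354XH.cd (up_sm 0 1)).continuousOn
  have H' : ∀ t, deriv (up 0 1) t ≤ k := fun t => by
    rcases lt_or_ge t 0 with h | h
    · rw [up_dl one_pos h]; exact hk.le
    · rcases lt_or_ge 1 t with h' | h'
      · rw [up_dr one_pos h']; exact hk.le
      · exact (le_abs_self _).trans (H t ⟨h, h'⟩)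
  refine ⟨k, hk.le, fun a b r h => ?_⟩
  have e : up a b = fun x => up 0 1 ((x - a) / (b - a)) := funext fun x => by simp [up]
  have d : HasDerivAt (fun x => up 0 1 ((x - a) / (b - a))) _ r :=
    (P354XH.hd (up_sm 0 1) _).comp r (((hasDerivAt_id r).sub_const a).div_const (b - a))
  rw [e, d.deriv, mul_one_div]
  have : 0 < b - a := by linarith
  gcongr
  exact H' _

/-- The cut off of the multiplier. -/
def chi (x x' R r : ℝ) : ℝ := up x x' r * dn (3 * R / 2) (2 * R) r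

theorem chi_sm (x x' R : ℝ) : ContDiff ℝ ∞ (chi x x' R) := (up_sm _ _).mul (dn_sm _ _)

theorem chi_nonneg (x x' R r : ℝ) : 0 ≤ chi x x' R r := mul_nonneg (up_nonneg _ _ _) (dn_nonneg _ _ _)

theorem chi_le (x x' R r : ℝ) : chi x x' R r ≤ 1 :=
  mul_le_one₀ (up_le _ _ _) (dn_nonneg _ _ _) (dn_le _ _ _)

theorem chi_l {x x' R r : ℝ} (h : x < x') (hr : r ≤ x) : chi x x' R r = 0 := by
  rw [chi, up_zero h hr, zero_mul]

theorem chi_r {x x' R r : ℝ} (h : 0 < R) (hr : 2 * R ≤ r) : chi x x' R r = 0 := by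
  rw [chi, dn_zero (by linarith) hr, mul_zero]

theorem chi_one {x x' R r : ℝ} (h : x < x') (hR : 0 < R) (h1 : x' ≤ r) (h2 : r ≤ 3 * R / 2) :
    chi x x' R r = 1 := by rw [chi, up_one h h1, dn_one (by linarith) h2, mul_one]

theorem chi_d (x x' R r : ℝ) : HasDerivAt (chi x x' R) (deriv (up x x') r *
    dn (3 * R / 2) (2 * R) r - up x x' r * deriv (up (3 * R / 2) (2 * R)) r) r :=
  ((P354XH.hd (up_sm x x') r).mul
    ((P354XH.hd (up_sm (3 * R / 2) (2 * R)) r).const_sub 1)).congr_deriv (by rw [dn]; ring)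

theorem pt_a {c R r Cb T l B g h1 ρ Z W : ℝ} (hc : 0 < c) (hr : 0 < r) (hR : r ≤ R) (hT : 0 ≤ T)
    (hl : 0 ≤ l) (h1' : |h1| ≤ Cb * l) (hg : |g| ≤ 2 * Cb * l) (hρ : |ρ| ≤ Z * W)
    (hB : c * l * (W ^ 2 / r ^ 4) ≤ B) :
    -((2 * T * Cb + Cb ^ 2 / (4 * (c / (2 * R ^ 4)))) * (l * Z ^ 2)) ≤
      B / 2 - T * (g * Z ^ 2) + h1 * ρ := by
  have R0 : 0 < R := hr.trans_le hR
  have a1 := mul_le_mul_of_nonneg_left
    (young (k := c / (2 * R ^ 4)) (C := Cb) (x := Z) (y := W) (by positivity)) hl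
  have a2 : |h1 * ρ| ≤ Cb * l * (Z * W) := by
    rw [abs_mul]; exact mul_le_mul h1' hρ (abs_nonneg _) ((abs_nonneg _).trans h1')
  have a3 : T * (g * Z ^ 2) ≤ T * (2 * Cb * l * Z ^ 2) := by
    gcongr; exact (le_abs_self _).trans hg
  have a4 : c * l * (W ^ 2 / R ^ 4) ≤ c * l * (W ^ 2 / r ^ 4) := by gcongr
  have a5 : l * (c / (2 * R ^ 4) * W ^ 2) = c * l * (W ^ 2 / R ^ 4) / 2 := by ring
  have := (abs_le.1 a2).1
  linarith

theorem pt_b {c Cb T l Q b h d ρ Z W : ℝ} (hc : 0 < c) (hT : 0 ≤ T) (hl : 0 ≤ l) (hd : d ≤ 0)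
    (hd' : |d| ≤ Cb) (hb : |b| ≤ Cb * l) (hh : |h| ≤ Cb * l) (hρ : |ρ| ≤ Z * W)
    (hQ : c * l * (-d * W ^ 2) ≤ Q) :
    -((T * Cb + Cb * (Cb ^ 2 / (4 * c))) * (l * Z ^ 2)) ≤ Q + T * (b * Z ^ 2) + h * d * ρ := by
  have a1 := mul_le_mul_of_nonneg_left (young (C := Cb) (x := Z) (y := W) hc)
    (mul_nonneg hl (neg_nonneg.2 hd))
  have a2 : |h * ρ| ≤ Cb * l * (Z * W) := by
    rw [abs_mul]; exact mul_le_mul hh hρ (abs_nonneg _) ((abs_nonneg _).trans hh)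
  have a3 := mul_le_mul_of_nonneg_left (abs_le.1 a2).2 (neg_nonneg.2 hd)
  have a4 := mul_le_mul_of_nonneg_left (mul_le_mul_of_nonneg_right (abs_le.1 hb).1 (sq_nonneg Z)) hT
  have a5 : -d * (Cb ^ 2 / (4 * c) * (l * Z ^ 2)) ≤ Cb * (Cb ^ 2 / (4 * c) * (l * Z ^ 2)) := by
    gcongr; linarith [(abs_le.1 hd').1]
  linarith

theorem pt_c {C R r Cb T l Q b h ρ Z W : ℝ} (hC : 0 ≤ C) (hR : 0 < R) (hr : R ≤ r) (hT : 0 ≤ T)
    (hl : 0 ≤ l) (hb : |b| ≤ Cb * l) (hh : |h| ≤ Cb * l) (hρ : |ρ| ≤ Z * W)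
    (hQ : Q ≤ C * l * (W ^ 2 / r ^ 2)) : Q + T * (b * Z ^ 2) + h * ρ ≤
      (C + 1) / R ^ 2 * (l * W ^ 2) + (T * Cb + Cb ^ 2 / (4 * (1 / R ^ 2))) * (l * Z ^ 2) := by
  have a1 := mul_le_mul_of_nonneg_left
    (young (k := 1 / R ^ 2) (C := Cb) (x := Z) (y := W) (by positivity)) hl
  have a2 : |h * ρ| ≤ Cb * l * (Z * W) := by
    rw [abs_mul]; exact mul_le_mul hh hρ (abs_nonneg _) ((abs_nonneg _).trans hh)
  have a4 := mul_le_mul_of_nonneg_left (mul_le_mul_of_nonneg_right (abs_le.1 hb).2 (sq_nonneg Z)) hT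
  have a5 : C * l * (W ^ 2 / r ^ 2) ≤ C * l * (W ^ 2 / R ^ 2) := by gcongr
  have := (abs_le.1 a2).2
  simp only [div_eq_mul_inv] at *
  linarith

theorem sub_le {φ ψ : ℝ → ℝ} {x0 x y y0 : ℝ} (h1 : x0 ≤ x) (h2 : x ≤ y) (h3 : y ≤ y0)
    (hφ : ContinuousOn φ (Icc x y)) (hψ : Continuous ψ) (h0 : ∀ r ∈ Icc x0 y0, 0 ≤ ψ r)
    (h : ∀ r ∈ Icc x y, φ r ≤ ψ r) : ∫ r in x..y, φ r ≤ ∫ r in x0..y0, ψ r :=
  (integral_mono_on h2 (ii h2 hφ) (hψ.intervalIntegrable _ _) h).trans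
    (int_sub hψ.continuousOn h0 h1 h2 h3)

variable {S : Type} [NormedAddCommGroup S] [InnerProductSpace ℂ S] {G : Ang S} {u : ℝ → S}

theorem d1_eq (om m r : ℝ) :
    d1 G om m u r = ‖deriv u r‖ ^ 2 + lam om m * ‖u r‖ ^ 2 + An G (u r) := rfl

theorem d1_nonneg (om m r : ℝ) : 0 ≤ d1 G om m u r := by
  have := lam_pos om m
  have := An_nonneg (A := G) (u r)
  rw [d1_eq]; positivity

theorem cont_d1 (hu : G.Sm u) (om m : ℝ) : Continuous (d1 G om m u) :=
  (((smD hu.cd).continuous.norm.pow 2).add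
    (continuous_const.mul (hu.cont.norm.pow 2))).add (cont_An hu)

theorem cont_Lv (hu : ContDiff ℝ ∞ u) (M a om m : ℝ) : Continuous (Lv M a om m u) :=
  (((cd_C (cd_De M a)).smul (smD hu)).sub
    ((cd_C (contDiff_const.mul (cd_K a om m))).smul (hu.const_smul I))).continuous

theorem cont_Xu {d e : ℕ} {b ch h : Fm} (hb : HP d b) (hch : HP e ch) (hh : HP d h)
    (hu : ContDiff ℝ ∞ u) (M a om m : ℝ) : Continuous (Xu b ch h M a om m u) :=
  ((((cd_C (contDiff_const.mul (hp_cd hb M a om m))).smul (smD hu)).sub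
    ((cd_C (contDiff_const.mul (hp_cd hch M a om m))).smul (hu.const_smul I))).add
    ((cd_C (hp_cd hh M a om m)).smul hu)).continuous

theorem cont_Bv {d e : ℕ} {b ch h : Fm} (hG : G.Is) (hu : G.Sm u) (hb : HP d b) (hch : HP e ch)
    (hh : HP d h) (T M a om m : ℝ) : Continuous (Bv G b ch h T M a om m u) := by
  have c1 := (hp_cd hb M a om m).continuous
  have c2 := (hp_cd hb.dr M a om m).continuous
  have c3 := (hp_cd hch.dr M a om m).continuous
  have c4 := (hp_cd hh M a om m).continuous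
  have c5 := (cd_De M a).continuous
  have c6 := (cd_K a om m).continuous
  have c7 := hu.cont
  have c8 := (smD hu.cd).continuous
  have c9 := cont_ri (c7.const_smul I) c8
  have c10 : Continuous fun r => ell G G.s a om m (u r) :=
    continuous_iff_continuousAt.2 fun r => (der_ell hG hu G.s a om m r).continuousAt
  unfold Bv Es
  fun_prop

end Vale.Agent.P354M0
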