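import Vale.Agent.P354M0.Tool

/-! A polynomial multiplier is a list of terms. -/

open scoped ContDiff InnerProductSpace ComplexConjugate
open Set intervalIntegral
open Complex (I)
open Vale.Agent.P354BF Vale.Agent.P354XT Vale.Agent.P354XN Vale.Agent.P354RP
open Vale.Agent.P354XH (Fm HP K ka el Bk Qf En dr)

noncomputable section

namespace Vale.Agent.P354M0

/-- The word T ^ i F ^ j. -/
def wd (i j : ℕ) (e : Op) : Op := Op.T^[i] (Op.F^[j] e)

theorem wd_ord (i j : ℕ) (e : Op) : (wd i j e).ord = e.ord + j + i := by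
  have h1 : ∀ (i : ℕ) (e : Op), (Op.T^[i] e).ord = e.ord + i := fun i e => by
    induction i with
    | zero => rfl
    | succ i ih => rw [Function.iterate_succ_apply', Op.ord, ih, add_assoc]
  have h2 : ∀ (i : ℕ) (e : Op), (Op.F^[i] e).ord = e.ord + i := fun i e => by
    induction i with
    | zero => rfl
    | succ i ih => rw [Function.iterate_succ_apply', Op.ord, ih, add_assoc]
  rw [wd, h1, h2]

theorem wd_sm (i j : ℕ) {e : Op} (he : e.Sm) : (wd i j e).Sm := by
  have h1 : ∀ (i : ℕ) (e : Op), e.Sm → (Op.T^[i] e).Sm := fun i e he => by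
    induction i with
    | zero => exact he
    | succ i ih => rw [Function.iterate_succ_apply']; exact ih
  have h2 : ∀ (i : ℕ) (e : Op), e.Sm → (Op.F^[i] e).Sm := fun i e he => by
    induction i with
    | zero => exact he
    | succ i ih => rw [Function.iterate_succ_apply']; exact ih
  exact h1 _ _ (h2 _ _ he)

section
variable {S : Type} [NormedAddCommGroup S] [InnerProductSpace ℂ S]

theorem wd_cv (M a om m : ℝ) (i j : ℕ) (e : Op) (v : ℝ → S) (r : ℝ) :
    (wd i j e).cv M a om m v r = ((-(I * om)) ^ i * (I * m) ^ j) • e.cv M a om m v r := by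
  have h1 : ∀ (i : ℕ) (e : Op), (Op.T^[i] e).cv M a om m v r =
      ((-(I * om)) ^ i) • e.cv M a om m v r := fun i e => by
    induction i with
    | zero => simp
    | succ i ih => simp only [Function.iterate_succ_apply', Op.cv, ih, smul_smul, pow_succ']
  have h2 : ∀ (i : ℕ) (e : Op), (Op.F^[i] e).cv M a om m v r =
      ((I * m) ^ i) • e.cv M a om m v r := fun i e => by
    induction i with
    | zero => simp
    | succ i ih => simp only [Function.iterate_succ_apply', Op.cv, ih, smul_smul, pow_succ']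
  rw [wd, h1, h2, smul_smul]

theorem pair_append (l l' : List Tm) (M a om m x y : ℝ) (H v : ℝ → S) :
    pair (l ++ l') M a om m x y H v = pair l M a om m x y H v + pair l' M a om m x y H v := by
  simp only [pair, List.map_append, List.sum_append]

end

theorem sgn (om m : ℝ) (i1 j1 i2 j2 n : ℕ) (h : i1 + j1 + i2 + j2 = 2 * n) :
    conj ((-(I * om)) ^ i1 * (I * m) ^ j1) * ((-(I * om)) ^ i2 * (I * m) ^ j2) =
      (((-1) ^ (n + j1 + i2) * (om ^ (i1 + i2) * m ^ (j1 + j2)) : ℝ) : ℂ) := by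
  have e : I ^ i1 * I ^ j1 * I ^ i2 * I ^ j2 = (-1) ^ n := by
    rw [← pow_add, ← pow_add, ← pow_add, h, pow_mul, Complex.I_sq]
  simp only [map_mul, map_pow, map_neg, Complex.conj_I, Complex.conj_ofReal, neg_mul, neg_neg]
  rw [neg_pow (I * m), neg_pow (I * om)]
  push_cast
  simp only [mul_pow, pow_add, ← e]
  ring

/-- The term for the monomial om ^ i m ^ (2 n - i). -/
def tm (w : ℝ × ℝ × ℝ → ℝ) (n i : ℕ) (e : Op) : Tm :=
  ⟨fun p => (-1) ^ (n + (n - min i n) + (i - min i n)) * w p, wd (min i n) (n - min i n) .one,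
    wd (i - min i n) (n - (i - min i n)) e⟩

theorem tm_ok {w : ℝ × ℝ × ℝ → ℝ} {n i : ℕ} {e : Op} {x y : ℝ} (hw : ContDiff ℝ ∞ w)
    (h0 : ∀ M a r, r ∉ Icc x y → w (M, a, r) = 0) (hi : i ≤ 2 * n) (he : e.Sm) (ho : e.ord ≤ 1) :
    (tm w n i e).Ok n x y :=
  ⟨contDiff_const.mul hw, fun M a r hr => by simp only [tm, h0 M a r hr, mul_zero],
    wd_sm _ _ trivial, wd_sm _ _ he, by simp only [tm, wd_ord, Op.ord]; omega,
    by simp only [tm, wd_ord]; omega⟩

theorem tm_val {S : Type} [NormedAddCommGroup S] [InnerProductSpace ℂ S] (w : ℝ × ℝ × ℝ → ℝ)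
    {n i : ℕ} (hi : i ≤ 2 * n) (e : Op) (M a om m : ℝ) (H u : ℝ → S) (r : ℝ) :
    (tm w n i e).w (M, a, r) * (⟪(tm w n i e).al.cv M a om m H r,
      (tm w n i e).be.cv M a om m u r⟫_ℂ).re =
      w (M, a, r) * om ^ i * m ^ (2 * n - i) * ri (H r) (e.cv M a om m u r) := by
  simp only [tm, wd_cv, inner_smul_left, inner_smul_right, Op.cv]
  rw [← mul_assoc, mul_comm (_ * _ : ℂ) (conj _), sgn om m _ _ _ _ n (by omega),
    Complex.re_ofReal_mul, show min i n + (i - min i n) = i by omega,
    show n - min i n + (n - (i - min i n)) = 2 * n - i by omega, ri]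
  generalize n + (n - min i n) + (i - min i n) = k
  have : ((-1 : ℝ) ^ k) * (-1) ^ k = 1 := by rw [← mul_pow]; simp
  linear_combination (w (M, a, r) * om ^ i * m ^ (2 * n - i) *
    (⟪H r, e.cv M a om m u r⟫_ℂ).re) * this

theorem cont_ri {S : Type} [NormedAddCommGroup S] [InnerProductSpace ℂ S] {u v : ℝ → S}
    (hu : Continuous u) (hv : Continuous v) : Continuous fun r => ri (u r) (v r) :=
  Complex.continuous_re.comp (hu.inner hv)

theorem hp_cd {d : ℕ} {F : Fm} (h : HP d F) (M a om m : ℝ) :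
    ContDiff ℝ ∞ fun r => F M a r om m := by
  obtain ⟨c, hc, e⟩ := h
  simp only [e]
  exact ContDiff.sum fun i _ => (((hc i).comp
    (contDiff_const.prodMk (contDiff_const.prodMk contDiff_id))).mul contDiff_const).mul
      contDiff_const

theorem ex_even {n : ℕ} {F : Fm} (hF : HP (2 * n) F) {χ : ℝ → ℝ} (hχ : ContDiff ℝ ∞ χ) {x y : ℝ}
    (h0 : ∀ r, r ∉ Icc x y → χ r = 0) {e : Op} (he : e.Sm) (ho : e.ord ≤ 1) :
    ∃ l : List Tm, (∀ τ ∈ l, τ.Ok n x y) ∧ ∀ (M a om m : ℝ) (S : Type) [NormedAddCommGroup S]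
      [InnerProductSpace ℂ S] (H u : ℝ → S), Continuous H → Continuous (e.cv M a om m u) →
      pair l M a om m x y H u =
        ∫ r in x..y, χ r * F M a r om m * ri (H r) (e.cv M a om m u r) := by
  obtain ⟨c, hc, eF⟩ := hF
  refine ⟨(List.range (2 * n + 1)).map fun i => tm (fun p => χ p.2.2 * c i p) n i e, ?_,
    fun M a om m S _ _ H u h1 h2 => ?_⟩
  · intro τ hτ
    obtain ⟨i, hi, rfl⟩ := List.mem_map.1 hτ
    exact tm_ok ((hχ.comp (contDiff_snd.comp contDiff_snd)).mul (hc i))
      (fun M a r hr => by simp only [h0 r hr, zero_mul]) (Nat.lt_succ_iff.1 (List.mem_range.1 hi))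
      he ho
  · have c0 : ∀ i, Continuous fun r => χ r * c i (M, a, r) * om ^ i * m ^ (2 * n - i) *
        ri (H r) (e.cv M a om m u r) := fun i => by
      have := (hc i).continuous
      have := hχ.continuous
      have := cont_ri h1 h2
      fun_prop
    rw [pair, List.map_map, ← List.sum_toFinset _ List.nodup_range, List.toFinset_range]
    refine (Finset.sum_congr rfl (g := fun i => ∫ r in x..y, χ r * c i (M, a, r) * om ^ i *
        m ^ (2 * n - i) * ri (H r) (e.cv M a om m u r)) fun i hi => integral_congr fun r _ =>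
        tm_val (fun p => χ p.2.2 * c i p) (n := n) (Nat.lt_succ_iff.1 (Finset.mem_range.1 hi))
          e M a om m H u r).trans ?_
    rw [← integral_finsetSum fun i _ => (c0 i).intervalIntegrable _ _]
    refine integral_congr fun r _ => ?_
    simp only [eF, Finset.mul_sum, Finset.sum_mul]
    exact Finset.sum_congr rfl fun i _ => by ring

theorem hp_odd {d : ℕ} {F : Fm} (hF : HP (d + 1) F) : ∃ F1 F2 : Fm, HP d F1 ∧ HP d F2 ∧
    ∀ M a r om m, F M a r om m = F1 M a r om m * om + F2 M a r om m * m := by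
  obtain ⟨c, hc, e⟩ := hF
  refine ⟨fun M a r om m => ∑ i ∈ Finset.range (d + 1), c (i + 1) (M, a, r) * om ^ i * m ^ (d - i),
    fun M a r _ m => c 0 (M, a, r) * m ^ d, ⟨fun i => c (i + 1), fun i => hc _,
      fun _ _ _ _ _ => rfl⟩, ((HP.const (hc 0)).mul_m_pow d).cast (zero_add d),
    fun M a r om m => ?_⟩
  rw [e, Finset.sum_range_succ', Finset.sum_mul]
  congr 1
  · exact Finset.sum_congr rfl fun i _ => by rw [Nat.add_sub_add_right]; ring
  · simp; ring

/-- The list of terms of the multiplier. -/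
theorem ex_list {n : ℕ} {b ch h : Fm} (hb : HP (2 * n) b) (hch : HP (2 * n + 1) ch)
    (hh : HP (2 * n) h) {χ : ℝ → ℝ} (hχ : ContDiff ℝ ∞ χ) {x y : ℝ}
    (h0 : ∀ r, r ∉ Icc x y → χ r = 0) :
    ∃ l : List Tm, (∀ τ ∈ l, τ.Ok n x y) ∧ ∀ (M a om m : ℝ) (S : Type) [NormedAddCommGroup S]
      [InnerProductSpace ℂ S] (H u : ℝ → S), Continuous H → ContDiff ℝ ∞ u →
      pair l M a om m x y H u = ∫ r in x..y, χ r * ri (H r) (Xu b ch h M a om m u r) := by
  obtain ⟨F1, F2, f1, f2, e⟩ := hp_odd hch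
  obtain ⟨l1, o1, p1⟩ := ex_even (hb.smul (k := fun _ => 2) contDiff_const) hχ h0
    (e := .R .one) trivial le_rfl
  obtain ⟨l2, o2, p2⟩ := ex_even (f1.smul (k := fun _ => 2) contDiff_const) hχ h0
    (e := .T .one) trivial le_rfl
  obtain ⟨l3, o3, p3⟩ := ex_even (f2.smul (k := fun _ => -2) contDiff_const) hχ h0
    (e := .F .one) trivial le_rfl
  obtain ⟨l4, o4, p4⟩ := ex_even hh hχ h0 (e := .one) trivial zero_le_one
  refine ⟨l1 ++ l2 ++ l3 ++ l4, fun τ hτ => ?_, fun M a om m S _ _ H u hH hu => ?_⟩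
  · simp only [List.mem_append] at hτ
    rcases hτ with ((hτ | hτ) | hτ) | hτ
    exacts [o1 τ hτ, o2 τ hτ, o3 τ hτ, o4 τ hτ]
  · have u0 := hu.continuous
    have u1 := (smD hu).continuous
    have u2 : Continuous fun r => (-(I * om)) • u r := u0.const_smul _
    have u3 : Continuous fun r => (I * m) • u r := u0.const_smul _
    have x0 := hχ.continuous
    have c1 := (hp_cd hb M a om m).continuous
    have c2 := (hp_cd f1 M a om m).continuous
    have c3 := (hp_cd f2 M a om m).continuous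
    have c4 := (hp_cd hh M a om m).continuous
    have r0 := cont_ri hH u0
    have r1 := cont_ri hH u1
    have r2 := cont_ri hH u2
    have r3 := cont_ri hH u3
    rw [pair_append, pair_append, pair_append, p1 M a om m S H u hH u1, p2 M a om m S H u hH u2,
      p3 M a om m S H u hH u3, p4 M a om m S H u hH u0]
    simp only [Op.cv]
    rw [← int_add (by fun_prop) (by fun_prop), ← int_add (by fun_prop) (by fun_prop),
      ← int_add (by fun_prop) (by fun_prop)]
    refine integral_congr fun r _ => ?_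
    have e1 : (-(I * om) : ℂ) • u r = ((-om : ℝ) : ℂ) • I • u r := by push_cast; module
    have e2 : (I * m : ℂ) • u r = (m : ℂ) • I • u r := by module
    simp only [Xu, X, e1, e2, ri_add, ri_sub, ri_real, e]
    ring

end Vale.Agent.P354M0
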