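import Vale.Agent.P354M0.Lst
import Vale.Agent.P354ME.Vec

/-! The bulk and the fluxes in vector form, at one radius. -/

open scoped ContDiff InnerProductSpace
open Set
open Complex (I)
open Vale.Agent.P354BF Vale.Agent.P354XT Vale.Agent.P354XN Vale.Agent.P354RP
open Vale.Agent.P354XH (Fm HP K ka el Bk Qf En dr)
open Vale.Agent.P354ME (nsq_sub nsq_real)

noncomputable section

namespace Vale.Agent.P354M0

theorem vecL {α β γ g l p q j E : ℝ} (h : ∀ x L, l ≤ L → 0 ≤ α * x ^ 2 + 2 * β * x + γ + g * L)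
    (hp : 0 ≤ p) (hq : 0 ≤ q) (hj : j ^ 2 ≤ p * q) (hE : l * q ≤ E) (h0 : q = 0 → E = 0) :
    0 ≤ α * p + 2 * β * j + γ * q + g * E := by
  have hα : 0 ≤ α := by
    by_contra hn
    push Not at hn
    have d := discrim_le_zero (a := α) (b := 2 * β) (c := γ + g * l) fun x => by
      have := h x l le_rfl; linarith
    have a0 := h 0 l le_rfl
    have a1 := h 1 l le_rfl
    have a2 := h (-1) l le_rfl
    rw [discrim] at d
    nlinarith [sq_nonneg β]
  rcases hq.eq_or_lt with e | hq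
  · have : j = 0 := by rw [← e, mul_zero] at hj; nlinarith [sq_nonneg j]
    rw [h0 e.symm, this, ← e]; simpa using mul_nonneg hα hp
  · have a1 := mul_nonneg (h (j / q) (E / q) ((le_div_iff₀ hq).2 hE)) hq.le
    have a2 : j ^ 2 / q ≤ p := (div_le_iff₀ hq).2 hj
    have e : (α * (j / q) ^ 2 + 2 * β * (j / q) + γ + g * (E / q)) * q =
        α * (j ^ 2 / q) + 2 * β * j + γ * q + g * E := by field_simp
    nlinarith [mul_le_mul_of_nonneg_left a2 hα]

theorem young {k C x y : ℝ} (hk : 0 < k) : C * (x * y) ≤ k * y ^ 2 + C ^ 2 / (4 * k) * x ^ 2 := by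
  have e : k * y ^ 2 + C ^ 2 / (4 * k) * x ^ 2 - C * (x * y) = (2 * k * y - C * x) ^ 2 / (4 * k) := by
    field_simp; ring
  have : 0 ≤ (2 * k * y - C * x) ^ 2 / (4 * k) := by positivity
  linarith

variable {S : Type} [NormedAddCommGroup S] [InnerProductSpace ℂ S] {G : Ang S}

theorem j_sq (u v : S) : ri (I • u) v ^ 2 ≤ ‖v‖ ^ 2 * ‖u‖ ^ 2 := by
  have := abs_ri (I • u) v
  rw [norm_I] at this
  rw [← sq_abs, ← mul_pow, mul_comm]
  exact pow_le_pow_left₀ (abs_nonneg _) this 2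

theorem nsq_DK (d k : ℝ) (u v : S) : ‖(d : ℂ) • v - (k : ℂ) • I • u‖ ^ 2 =
    d ^ 2 * ‖v‖ ^ 2 - 2 * d * k * ri (I • u) v + k ^ 2 * ‖u‖ ^ 2 := by
  rw [nsq_sub, nsq_real, nsq_real, norm_I, ri_real, ri_real_l, ri_comm v]; ring

theorem ri_Lv (M a om m : ℝ) (z : ℝ → S) (r : ℝ) :
    ri (z r) (Lv M a om m z r) = De M a r * ri (z r) (deriv z r) := by
  rw [Lv, ri_sub, ri_real, ri_real, ri_comm (z r) (I • z r), ri_I_self]; ring

variable (G) in
/-- The shifted angular form. -/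
def Es (T a om m : ℝ) (u : S) : ℝ := ell G G.s a om m u + T * ‖u‖ ^ 2

theorem Es_zero (T a om m : ℝ) (u : S) (h : ‖u‖ ^ 2 = 0) : Es G T a om m u = 0 := by
  have : u = 0 := by simpa using h
  simp [Es, ell, this, ri]

theorem Es_ge (hG : G.Is) (hs : |G.s| = 2) {A c a om m : ℝ} (hc : 0 < c) (ha : |a| ≤ A) {u : S}
    (hu : G.L 2 u = (I * m) • u) :
    (el a om m - c * (om ^ 2 + m ^ 2)) * ‖u‖ ^ 2 ≤ Es G (16 * A ^ 2 / c) a om m u ∧
    An G u ≤ Es G (16 * A ^ 2 / c) a om m u + (c + A) * ((om ^ 2 + m ^ 2) * ‖u‖ ^ 2) := by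
  obtain ⟨a1, a2⟩ := P354ME.ang hG (B := 2) G.s a om m hs.le hs.le u hu
  have a3 := P354ME.el_sg hG (a * om) m u
  have a4 : 8 * |a * om| ≤ c * (om ^ 2 + m ^ 2) + 16 * A ^ 2 / c := by
    have b1 := young (C := 8) (x := A) (y := |om|) hc
    have b2 : |a * om| ≤ A * |om| := by rw [abs_mul]; gcongr
    rw [sq_abs, show (8 : ℝ) ^ 2 / (4 * c) * A ^ 2 = 16 * A ^ 2 / c by ring] at b1
    nlinarith [mul_nonneg hc.le (sq_nonneg m)]
  have a5 := mul_le_mul_of_nonneg_right a4 (sq_nonneg ‖u‖)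
  have a6 : |a| * (om ^ 2 + m ^ 2) * ‖u‖ ^ 2 ≤ A * (om ^ 2 + m ^ 2) * ‖u‖ ^ 2 := by gcongr
  unfold Es el
  constructor <;> linarith

variable (G) in
/-- The bulk term in vector form. -/
def Bv (b ch h : Fm) (T M a om m : ℝ) (u : ℝ → S) (r : ℝ) : ℝ :=
  (dr b M a r om m * De M a r - b M a r om m * (2 * r - 2 * M) + h M a r om m * De M a r) *
      ‖deriv u r‖ ^ 2 +
    2 * (b M a r om m * (2 * r * om) - h M a r om m * K a r om m -
      dr ch M a r om m * De M a r) * ri (I • u r) (deriv u r) +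
    2 * dr ch M a r om m * K a r om m * ‖u r‖ ^ 2 +
    (h M a r om m - dr b M a r om m) * Es G T a om m (u r)

variable (G) in
/-- The flux in vector form. -/
def Qv (b ch : Fm) (T M a om m : ℝ) (u : ℝ → S) (r : ℝ) : ℝ :=
  b M a r om m * De M a r * ‖deriv u r‖ ^ 2 - b M a r om m * Es G T a om m (u r) -
    2 * ch M a r om m * (De M a r * ri (I • u r) (deriv u r) - K a r om m * ‖u r‖ ^ 2)

variable {b ch h : Fm} {T M a om m r l k : ℝ} {u : ℝ → S}

theorem Bv_1 (hE : l * ‖u r‖ ^ 2 ≤ Es G T a om m (u r))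
    (H : ∀ x L, l ≤ L → k * ((De M a r * x - K a r om m) ^ 2 / r ^ 4 +
      ka M a r om m ^ 2 / r ^ 6) ≤ Bk b ch h M a r om m x L) :
    k * (‖D M a om m u r‖ ^ 2 / r ^ 4 + ka M a r om m ^ 2 * ‖u r‖ ^ 2 / r ^ 6) ≤
      Bv G b ch h T M a om m u r := by
  have := vecL (α := dr b M a r om m * De M a r - b M a r om m * (2 * r - 2 * M) +
      h M a r om m * De M a r - k * De M a r ^ 2 / r ^ 4)
    (β := b M a r om m * (2 * r * om) - h M a r om m * K a r om m - dr ch M a r om m * De M a r +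
      k * De M a r * K a r om m / r ^ 4)
    (γ := 2 * dr ch M a r om m * K a r om m - k * K a r om m ^ 2 / r ^ 4 -
      k * ka M a r om m ^ 2 / r ^ 6) (g := h M a r om m - dr b M a r om m)
    (fun x L hL => by have := H x L hL; unfold Bk at this; linear_combination this)
    (sq_nonneg _) (sq_nonneg _) (j_sq (u r) (deriv u r)) hE (Es_zero T a om m _)
  rw [D, nsq_DK, Bv]
  linear_combination this

theorem Bv_2 (hE : l * ‖u r‖ ^ 2 ≤ Es G T a om m (u r))
    (H : ∀ x L, l ≤ L → k * ((x ^ 2 + (om ^ 2 + m ^ 2) + L) / r) ≤ Bk b ch h M a r om m x L) :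
    k * ((‖deriv u r‖ ^ 2 + (om ^ 2 + m ^ 2) * ‖u r‖ ^ 2 + Es G T a om m (u r)) / r) ≤
      Bv G b ch h T M a om m u r := by
  have := vecL (α := dr b M a r om m * De M a r - b M a r om m * (2 * r - 2 * M) +
      h M a r om m * De M a r - k / r)
    (β := b M a r om m * (2 * r * om) - h M a r om m * K a r om m - dr ch M a r om m * De M a r)
    (γ := 2 * dr ch M a r om m * K a r om m - k * (om ^ 2 + m ^ 2) / r)
    (g := h M a r om m - dr b M a r om m - k / r)
    (fun x L hL => by have := H x L hL; unfold Bk at this; linear_combination this)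
    (sq_nonneg _) (sq_nonneg _) (j_sq (u r) (deriv u r)) hE (Es_zero T a om m _)
  rw [Bv]
  linear_combination this

theorem Qv_0 (hE : l * ‖u r‖ ^ 2 ≤ Es G T a om m (u r))
    (H : ∀ x L, l ≤ L → k * (-De M a r * x ^ 2) ≤ Qf b ch M a r om m x L) :
    k * (-De M a r * ‖deriv u r‖ ^ 2) ≤ Qv G b ch T M a om m u r := by
  have := vecL (α := b M a r om m * De M a r + k * De M a r) (β := -(ch M a r om m * De M a r))
    (γ := 2 * ch M a r om m * K a r om m) (g := -b M a r om m)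
    (fun x L hL => by have := H x L hL; unfold Qf at this; linear_combination this)
    (sq_nonneg _) (sq_nonneg _) (j_sq (u r) (deriv u r)) hE (Es_zero T a om m _)
  rw [Qv]
  linear_combination this

theorem Qv_1 (hE : l * ‖u r‖ ^ 2 ≤ Es G T a om m (u r))
    (H : ∀ x L, l ≤ L → Qf b ch M a r om m x L ≤
      k * ((De M a r * x - 2 * K a r om m) ^ 2 / r ^ 2)) :
    Qv G b ch T M a om m u r ≤ k * (‖Lv M a om m u r‖ ^ 2 / r ^ 2) := by
  have := vecL (α := k * De M a r ^ 2 / r ^ 2 - b M a r om m * De M a r)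
    (β := ch M a r om m * De M a r - 2 * k * De M a r * K a r om m / r ^ 2)
    (γ := 4 * k * K a r om m ^ 2 / r ^ 2 - 2 * ch M a r om m * K a r om m) (g := b M a r om m)
    (fun x L hL => by have := H x L hL; unfold Qf at this; linear_combination this)
    (sq_nonneg _) (sq_nonneg _) (j_sq (u r) (deriv u r)) hE (Es_zero T a om m _)
  rw [Qv, Lv, nsq_DK]
  linear_combination this

/-- The current, with the shifted angular form. -/
theorem cur0 {d e : ℕ} (hG : G.Is) (hu : G.Sm u) (hb : HP d b) (hch : HP e ch) (hh : HP d h)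
    (T M a om m r : ℝ) :
    HasDerivAt (fun x => Qv G b ch T M a om m u x + T * (b M a x om m * ‖u x‖ ^ 2) +
        h M a x om m * De M a x * ri (u x) (deriv u x))
      (ri (G.P 0 G.s M a om m u r) (Xu b ch h M a om m u r) + Bv G b ch h T M a om m u r -
        T * ((h M a r om m - dr b M a r om m) * ‖u r‖ ^ 2) +
        dr h M a r om m * ri (u r) (D M a om m u r)) r := by
  have := cur3 hG hu 0 G.s M a om m (hb.hd M a r om m) (hch.hd M a r om m) (hh.hd M a r om m)
  refine (this.congr_deriv ?_).congr_of_eventuallyEq (Filter.Eventually.of_forall fun x => ?_)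
  · rw [ri_comm, ri_D, Xu, Bv, Es]; ring
  · simp only [Qv, Es]; ring

end Vale.Agent.P354M0
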