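import Vale.Agent.P354M0.Defs
import Vale.Agent.P354XH.Main

/-! Uniform bounds, cut off functions and the uncertainty estimate. -/

open scoped ContDiff InnerProductSpace
open Set Filter Topology intervalIntegral
open Complex (I)
open Vale.Agent.P354BF Vale.Agent.P354XT Vale.Agent.P354XN Vale.Agent.P354RP
open Vale.Agent.P354XH (Fm HP K ka el Bk Qf En dr)

noncomputable section

namespace Vale.Agent.P354M0

/-- The size of the frequency. -/
def fq (om m : ℝ) : ℝ := √(lam om m)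

theorem lam_one (om m : ℝ) : 1 ≤ lam om m := by unfold lam; nlinarith [sq_nonneg om, sq_nonneg m]

theorem lam_pos (om m : ℝ) : 0 < lam om m := one_pos.trans_le (lam_one om m)

theorem fq_sq (om m : ℝ) : fq om m ^ 2 = lam om m := Real.sq_sqrt (lam_pos om m).le

theorem fq_one (om m : ℝ) : 1 ≤ fq om m := Real.one_le_sqrt.2 (lam_one om m)

theorem fq_om (om m : ℝ) : |om| ≤ fq om m :=
  Real.abs_le_sqrt (by unfold lam; nlinarith [sq_nonneg m])

theorem fq_m (om m : ℝ) : |m| ≤ fq om m :=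
  Real.abs_le_sqrt (by unfold lam; nlinarith [sq_nonneg om])

theorem fq_pow (om m : ℝ) (n : ℕ) : fq om m ^ (2 * n) = lam om m ^ n := by rw [pow_mul, fq_sq]

/-- A bound for a continuous function of (M, a, r). -/
theorem bd3 {c : ℝ × ℝ × ℝ → ℝ} (hc : Continuous c) (M0 a0 x y : ℝ) : ∃ C, 0 ≤ C ∧
    ∀ M a, |M - M0| ≤ 1 → |a - a0| ≤ 1 → ∀ r ∈ Icc x y, |c (M, a, r)| ≤ C := by
  obtain ⟨C, hC, h⟩ := P354XH.upper ((isCompact_Icc (a := M0 - 1) (b := M0 + 1)).prod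
    ((isCompact_Icc (a := a0 - 1) (b := a0 + 1)).prod (isCompact_Icc (a := x) (b := y))))
    hc.continuousOn
  refine ⟨C, hC.le, fun M a h1 h2 r hr => h _ ⟨?_, ?_, hr⟩⟩
  · constructor <;> linarith [(abs_le.1 h1).1, (abs_le.1 h1).2]
  · constructor <;> linarith [(abs_le.1 h2).1, (abs_le.1 h2).2]

/-- A bound for a polynomial family. -/
theorem hp_bd {d : ℕ} {F : Fm} (h : HP d F) (M0 a0 x y : ℝ) : ∃ C, 0 ≤ C ∧
    ∀ M a, |M - M0| ≤ 1 → |a - a0| ≤ 1 → ∀ r ∈ Icc x y, ∀ om m t, |om| ≤ t → |m| ≤ t →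
      |F M a r om m| ≤ C * t ^ d := by
  obtain ⟨c, hc, e⟩ := h
  choose C h0 hC using fun i => bd3 (hc i).continuous M0 a0 x y
  refine ⟨∑ i ∈ Finset.range (d + 1), C i, Finset.sum_nonneg fun i _ => h0 i,
    fun M a h1 h2 r hr om m t ho hm => ?_⟩
  rw [e, Finset.sum_mul]
  refine (Finset.abs_sum_le_sum_abs _ _).trans (Finset.sum_le_sum fun i hi => ?_)
  have hi' : i ≤ d := Nat.lt_succ_iff.mp (Finset.mem_range.mp hi)
  have : t ^ d = t ^ i * t ^ (d - i) := by rw [← pow_add, Nat.add_sub_cancel' hi']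
  rw [this, abs_mul, abs_mul, abs_pow, abs_pow, mul_assoc]
  have := h0 i
  have := (abs_nonneg om).trans ho
  gcongr
  exact hC i M a h1 h2 r hr

/-- A positive lower bound which is uniform near (M0, a0). -/
theorem unif {T : Type} [TopologicalSpace T] {A : Set T} (hA : IsCompact A) {M0 a0 : ℝ}
    {F : T × ℝ × ℝ → ℝ} (hF : Continuous F) (hp : ∀ t ∈ A, 0 < F (t, M0, a0)) :
    ∃ c δ : ℝ, 0 < c ∧ 0 < δ ∧ δ ≤ 1 ∧ ∀ M a, |M - M0| < δ → |a - a0| < δ → ∀ t ∈ A,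
      c ≤ F (t, M, a) := by
  obtain ⟨c, hc, V, hV, h⟩ := P354XH.glob (w0 := (M0, a0)) (P := fun c y => c ≤ F y) hA
    (fun c c' y _ h1 h2 => h1.trans h2) fun t ht => ⟨F (t, M0, a0) / 2, half_pos (hp t ht),
      (continuousAt_const.eventually_lt hF.continuousAt (half_lt_self (hp t ht))).mono
        fun _ h => h.le⟩
  obtain ⟨δ, hδ, hb⟩ := Metric.eventually_nhds_iff.mp h
  refine ⟨c, min δ 1, hc, lt_min hδ one_pos, min_le_right _ _, fun M a h1 h2 t ht =>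
    hb (y := (M, a)) ?_ t (subset_of_mem_nhdsSet hV ht)⟩
  rw [Prod.dist_eq, max_lt_iff, Real.dist_eq, Real.dist_eq]
  exact ⟨h1.trans_le (min_le_left _ _), h2.trans_le (min_le_left _ _)⟩

/-- A plateau function. -/
theorem plateau {x x' y' y : ℝ} (h1 : x < x') (h3 : y' < y) : ∃ χ : ℝ → ℝ,
    ContDiff ℝ ∞ χ ∧ (∀ r, r ≤ x → χ r = 0) ∧ (∀ r, y ≤ r → χ r = 0) ∧
      (∀ r ∈ Icc x' y', χ r = 1) ∧ (∀ r, 0 ≤ χ r) ∧ ∀ r, χ r ≤ 1 := by
  obtain ⟨k, a1, a2, a3, a4, a5, -⟩ := P354XH.step h1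
  obtain ⟨l, b1, b2, b3, b4, b5, -⟩ := P354XH.step h3
  refine ⟨fun r => k r * (1 - l r), a1.mul (contDiff_const.sub b1), fun r hr => by
    simp [a2 r hr], fun r hr => by simp [b3 r hr], fun r hr => by simp [a3 r hr.1, b2 r hr.2],
    fun r => mul_nonneg (a4 r) (sub_nonneg.2 (b5 r)), fun r => ?_⟩
  nlinarith [a4 r, a5 r, b4 r, b5 r]

theorem dr_ka (M a r om m : ℝ) :
    dr ka M a r om m = om * (3 * r ^ 2 - 6 * M * r + a ^ 2) + a * m := by
  have := ((((((hasDerivAt_id r).pow 3).sub (((hasDerivAt_id r).pow 2).const_mul (3 * M))).add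
    ((hasDerivAt_id r).const_mul (a ^ 2))).add_const (a ^ 2 * M)).const_mul om).add
    (((hasDerivAt_id r).sub_const M).const_mul (a * m))
  refine HasDerivAt.deriv (this.congr_deriv ?_)
  simp; ring_nf; simp

/-- ka and its derivative span the frequencies. -/
theorem span {M0 a0 x y : ℝ} (ha : a0 ≠ 0) (h : |a0| < M0) (hx : M0 < x) :
    ∃ c δ : ℝ, 0 < c ∧ 0 < δ ∧ δ ≤ 1 ∧ ∀ M a, |M - M0| < δ → |a - a0| < δ → ∀ r ∈ Icc x y,
      ∀ om m, c * (om ^ 2 + m ^ 2) ≤ ka M a r om m ^ 2 + dr ka M a r om m ^ 2 := by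
  obtain ⟨c, δ, h1, h2, h3, H⟩ := unif ((isCompact_Icc (a := x) (b := y)).prod P354XH.Ci_compact)
    (M0 := M0) (a0 := a0) (F := fun p => ka p.2.1 p.2.2 p.1.1 p.1.2.1 p.1.2.2 ^ 2 +
      dr ka p.2.1 p.2.2 p.1.1 p.1.2.1 p.1.2.2 ^ 2) (by simp only [dr_ka, ka]; fun_prop) (by
      rintro ⟨r, o, n⟩ ⟨hr, hu⟩
      have hu' : o ^ 2 + n ^ 2 = 1 := hu
      refine lt_of_le_of_ne (by positivity) fun e => ?_
      have e1 : ka M0 a0 r o n = 0 := by
        nlinarith [sq_nonneg (ka M0 a0 r o n), sq_nonneg (dr ka M0 a0 r o n)]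
      have e2 : dr ka M0 a0 r o n = 0 := by
        nlinarith [sq_nonneg (ka M0 a0 r o n), sq_nonneg (dr ka M0 a0 r o n)]
      rw [dr_ka] at e2
      have p1 : 0 < r - M0 := by linarith [hr.1]
      have p2 := P354XH.sq_lt h
      have p3 := P354XH.M_pos h
      have e3 : o * (2 * (r - M0) ^ 3 + 2 * M0 * (M0 ^ 2 - a0 ^ 2)) = 0 := by
        unfold ka at e1; linear_combination (r - M0) * e2 - e1
      have e4 : o = 0 := (mul_eq_zero.1 e3).resolve_right (by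
        have : 0 < M0 ^ 2 - a0 ^ 2 := by linarith
        positivity)
      have e5 : n = 0 := by
        rw [e4] at e2; exact (mul_eq_zero.1 (by linarith : a0 * n = 0)).resolve_left ha
      rw [e4, e5] at hu'; norm_num at hu')
  refine ⟨c, δ, h1, h2, h3, fun M a a1 a2 r hr om m => ?_⟩
  obtain ⟨t, o, n, ht, hu, rfl, rfl⟩ := P354XH.polar om m
  have := H M a a1 a2 (r, o, n) ⟨hr, hu⟩
  rw [HP.ka.hom, HP.ka.dr.hom]
  have e : (t * o) ^ 2 + (t * n) ^ 2 = t ^ 2 := by linear_combination t ^ 2 * hu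
  rw [e]
  nlinarith [mul_le_mul_of_nonneg_left this (sq_nonneg t)]

variable {S : Type} [NormedAddCommGroup S] [InnerProductSpace ℂ S]

theorem ri_D (M a om m : ℝ) (z : ℝ → S) (r : ℝ) :
    ri (z r) (D M a om m z r) = De M a r * ri (z r) (deriv z r) := by
  rw [D, ri_sub, ri_real, ri_real, ri_comm (z r) (I • z r), ri_I_self]; ring

theorem hasD {z : ℝ → S} (hz : ContDiff ℝ ∞ z) (r : ℝ) : HasDerivAt z (deriv z r) r :=
  (hz.differentiable (by simp) r).hasDerivAt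

theorem smD {z : ℝ → S} (hz : ContDiff ℝ ∞ z) : ContDiff ℝ ∞ (deriv z) :=
  (contDiff_infty_iff_deriv.mp hz).2

theorem cont_D {z : ℝ → S} (hz : ContDiff ℝ ∞ z) (M a om m : ℝ) : Continuous (D M a om m z) :=
  (((cd_C (cd_De M a)).smul (smD hz)).sub
    ((cd_C (cd_K a om m)).smul (hz.const_smul I))).continuous

theorem int_add {f g : ℝ → ℝ} (hf : Continuous f) (hg : Continuous g) (x y : ℝ) :
    ∫ r in x..y, (f r + g r) = (∫ r in x..y, f r) + ∫ r in x..y, g r :=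
  integral_add (hf.intervalIntegrable _ _) (hg.intervalIntegrable _ _)

theorem int_sub3 {f g h : ℝ → ℝ} (hf : Continuous f) (hg : Continuous g) (hh : Continuous h)
    (a b x y : ℝ) : ∫ r in x..y, (f r - a * g r - b * h r) =
      (∫ r in x..y, f r) - a * (∫ r in x..y, g r) - b * ∫ r in x..y, h r := by
  rw [integral_sub (Continuous.intervalIntegrable (by fun_prop) _ _)
    (Continuous.intervalIntegrable (by fun_prop) _ _), integral_sub (hf.intervalIntegrable _ _)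
    (Continuous.intervalIntegrable (by fun_prop) _ _), integral_const_mul, integral_const_mul]

theorem unc_alg {c ε C w A B Z : ℝ} (hc : 0 < c) (hε : 0 < ε) (hC : 0 ≤ C) (hw : 1 ≤ w)
    (h1 : 3 / (c * ε) ≤ w) (h2 : 3 * C / (c * ε) ≤ w) :
    A ^ 2 + C * w * (A * Z) + C * w * (A * B) ≤
      c * ε * (w ^ 2 * (B ^ 2 + A ^ 2)) + 3 * C ^ 2 / (c * ε) * Z ^ 2 := by
  have hk : 0 < c * ε := mul_pos hc hε
  generalize c * ε = k at *
  rw [div_le_iff₀ hk] at h1 h2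
  have a1 : A ^ 2 ≤ k / 3 * (w ^ 2 * A ^ 2) := by
    have : 1 ≤ k / 3 * w ^ 2 := by nlinarith
    nlinarith [mul_le_mul_of_nonneg_right this (sq_nonneg A)]
  have a2 : C * w * (A * Z) ≤ k / 3 * (w ^ 2 * A ^ 2) + 3 * C ^ 2 / k * Z ^ 2 := by
    have e : k / 3 * (w ^ 2 * A ^ 2) + 3 * C ^ 2 / k * Z ^ 2 - 2 * (C * w * (A * Z)) =
        (k * w * A - 3 * C * Z) ^ 2 / (3 * k) := by field_simp; ring
    have : 0 ≤ (k * w * A - 3 * C * Z) ^ 2 / (3 * k) := by positivity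
    have : 0 ≤ k / 3 * (w ^ 2 * A ^ 2) + 3 * C ^ 2 / k * Z ^ 2 := by positivity
    linarith
  have a3 : C * w * (A * B) ≤ k / 3 * (w ^ 2 * (B ^ 2 + A ^ 2)) := by
    have b1 : A * B ≤ B ^ 2 + A ^ 2 := by nlinarith [sq_nonneg (A - B), sq_nonneg (A + B)]
    have b2 : C * w ≤ k / 3 * w ^ 2 := by nlinarith
    calc _ ≤ C * w * (B ^ 2 + A ^ 2) := by gcongr
      _ ≤ k / 3 * w ^ 2 * (B ^ 2 + A ^ 2) := by gcongr
      _ = _ := by ring
  have : 0 ≤ k * (w ^ 2 * B ^ 2) := by positivity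
  nlinarith

theorem unc_pt {c ε C1 C2 C3 d w l χ χ1 k k1 k2 Z B j : ℝ} (hc : 0 < c) (hε : 0 < ε)
    (p1 : 0 ≤ C1) (p2 : 0 ≤ C2) (p3 : 0 ≤ C3) (hd : 0 < d) (hw : 1 ≤ w) (hl : w ^ 2 = 1 + l)
    (h1 : 3 / (c * ε) ≤ w) (h2 : 3 * (C3 * C1 + C2 + 2 * C1 / d) / (c * ε) ≤ w) (x0 : 0 ≤ χ)
    (x1 : χ ≤ 1) (u3 : |χ1| ≤ C3) (u1 : |k1| ≤ C1 * w) (u2 : |k2| ≤ C2 * w)
    (u4 : c * l ≤ k ^ 2 + k1 ^ 2) (hZ : 0 ≤ Z) (hB : 0 ≤ B) (u6 : |j| ≤ Z * B / d) :
    χ * (w ^ 2 * Z ^ 2) - ε * (w ^ 2 * (B ^ 2 + k ^ 2 * Z ^ 2)) -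
      (1 + 3 * (C3 * C1 + C2 + 2 * C1 / d) ^ 2 / (c * ε) / c) * Z ^ 2 ≤
      (((χ1 * k + χ * k1) * k1 + χ * k * k2) * Z ^ 2 + χ * k * k1 * (2 * j)) / c := by
  have u7 := unc_alg (A := |k| * Z) (B := B) (Z := Z) hc hε (by positivity) hw h1 h2
  rw [mul_pow, sq_abs] at u7
  have w0 : 0 ≤ w := by linarith
  have x2 : |χ| ≤ 1 := by rwa [abs_of_nonneg x0]
  have v1 : |χ1 * k * k1 * Z ^ 2| ≤ C3 * |k| * (C1 * w) * Z ^ 2 := by
    simp only [abs_mul, abs_pow, abs_of_nonneg hZ]; gcongr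
  have v2 : |χ * k * k2 * Z ^ 2| ≤ 1 * |k| * (C2 * w) * Z ^ 2 := by
    simp only [abs_mul, abs_pow, abs_of_nonneg hZ]; gcongr
  have v3 : |χ * k * k1 * j| ≤ 1 * |k| * (C1 * w) * (Z * B / d) := by
    simp only [abs_mul]; gcongr
  have v4 := mul_le_mul_of_nonneg_left u4 (mul_nonneg x0 (sq_nonneg Z))
  have v5 := mul_le_mul_of_nonneg_left (mul_le_mul_of_nonneg_right x1 (sq_nonneg Z)) hc.le
  have v6 := mul_le_mul_of_nonneg_right x1 (mul_nonneg (sq_nonneg k) (sq_nonneg Z))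
  have v7 : 0 ≤ (C3 * C1 + C2) * w * (|k| * Z * B) := by positivity
  have v8 : 0 ≤ 2 * C1 / d * w * (|k| * Z * Z) := by positivity
  rw [le_div_iff₀ hc]
  have := (abs_le.1 v1).1
  have := (abs_le.1 v2).1
  have := (abs_le.1 v3).1
  generalize 3 * (C3 * C1 + C2 + 2 * C1 / d) ^ 2 / (c * ε) = K at *
  have e0 : K / c * c = K := by field_simp
  have e2 : (χ * (w ^ 2 * Z ^ 2) - ε * (w ^ 2 * (B ^ 2 + k ^ 2 * Z ^ 2)) - (1 + K / c) * Z ^ 2) * c =
      c * (χ * Z ^ 2) + χ * Z ^ 2 * (c * l) - c * ε * (w ^ 2 * (B ^ 2 + k ^ 2 * Z ^ 2)) -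
      c * Z ^ 2 - K * Z ^ 2 := by
    linear_combination (c * χ * Z ^ 2) * hl - Z ^ 2 * e0
  rw [e2]
  simp only [div_eq_mul_inv] at *
  linarith

theorem unc : UNC := by
  intro M0 a0 x x' y' y ha h hx h1 h2 h3 ε hε
  have hxy : x ≤ y := by linarith
  obtain ⟨χ, s0, s1, s2, s3, s4, s5⟩ := plateau h1 h3
  obtain ⟨c, δ, hc, hδ, δ1, H⟩ := span (y := y) ha h ((P354XH.rp_gt h).trans hx)
  obtain ⟨d, δ', hd, hδ', -, H'⟩ := unif (isCompact_Icc (a := x) (b := y)) (M0 := M0) (a0 := a0)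
    (F := fun p => De p.2.1 p.2.2 p.1) (by unfold De; fun_prop)
    fun r hr => P354XH.De_pos h (hx.trans_le hr.1)
  obtain ⟨C1, p1, b1⟩ := hp_bd HP.ka.dr M0 a0 x y
  obtain ⟨C2, p2, b2⟩ := hp_bd HP.ka.dr.dr M0 a0 x y
  obtain ⟨C3, p3, b3⟩ := P354XH.upper (isCompact_Icc (a := x) (b := y))
    (P354XH.cd s0).continuousOn
  set C := C3 * C1 + C2 + 2 * C1 / d with hC
  have pC : 0 ≤ C := by positivity
  set W := 3 / (c * ε) + 3 * C / (c * ε) with hW
  refine ⟨W ^ 2 + 1 + 3 * C ^ 2 / (c * ε) / c, min δ δ', by positivity, lt_min hδ hδ',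
    fun M a a1 a2 S _ _ om m z hz => ?_⟩
  have a3 := a1.trans_le (min_le_left _ _)
  have a4 := a2.trans_le (min_le_left _ _)
  have cz : Continuous fun r => ‖z r‖ ^ 2 := hz.continuous.norm.pow 2
  have cB : Continuous fun r => lam om m * (‖D M a om m z r‖ ^ 2 + ka M a r om m ^ 2 * ‖z r‖ ^ 2) :=
    continuous_const.mul (((cont_D hz M a om m).norm.pow 2).add
      (((cd_ka M a om m).continuous.pow 2).mul cz))
  have lp := lam_pos om m
  have i1 : 0 ≤ ∫ r in x..y, ‖z r‖ ^ 2 := integral_nonneg hxy fun r _ => by positivity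
  have i2 : 0 ≤ ∫ r in x..y, lam om m * (‖D M a om m z r‖ ^ 2 + ka M a r om m ^ 2 * ‖z r‖ ^ 2) :=
    integral_nonneg hxy fun r _ => by positivity
  have q0 : 0 ≤ 3 * C ^ 2 / (c * ε) / c := by positivity
  rcases le_total (fq om m) W with hw | hw
  · have e1 : lam om m ≤ W ^ 2 := by
      rw [← fq_sq]; exact pow_le_pow_left₀ (by linarith [fq_one om m]) hw 2
    have e2 := int_sub cz.continuousOn (fun r _ => by positivity) h1.le h2 h3.le
    rw [integral_const_mul]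
    have := mul_le_mul e1 e2 (integral_nonneg h2 fun r _ => by positivity) (sq_nonneg _)
    nlinarith [mul_nonneg hε.le i2, mul_nonneg q0 i1]
  · have k1 : 0 ≤ 3 / (c * ε) := by positivity
    have k2 : 0 ≤ 3 * C / (c * ε) := by positivity
    have cφ : Continuous fun r => χ r * (lam om m * ‖z r‖ ^ 2) :=
      s0.continuous.mul (continuous_const.mul cz)
    have key := int_le (Q := fun r => χ r * ka M a r om m * dr ka M a r om m * ‖z r‖ ^ 2 / c)
      (φ := fun r => χ r * (lam om m * ‖z r‖ ^ 2) - ε * (lam om m * (‖D M a om m z r‖ ^ 2 +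
        ka M a r om m ^ 2 * ‖z r‖ ^ 2)) - (1 + 3 * C ^ 2 / (c * ε) / c) * ‖z r‖ ^ 2) hxy
      ((cφ.sub (continuous_const.mul cB)).sub (continuous_const.mul cz)).continuousOn fun r hr => by
      refine ⟨_, ((((P354XH.hd s0 r).mul (HP.ka.hd M a r om m)).mul
        (HP.ka.dr.hd M a r om m)).mul (der_sq (hasD hz r))).div_const c, ?_⟩
      simp only [Pi.mul_apply]
      have u1 := b1 M a (a3.le.trans δ1) (a4.le.trans δ1) r hr om m _ (fq_om om m) (fq_m om m)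
      have u2 := b2 M a (a3.le.trans δ1) (a4.le.trans δ1) r hr om m _ (fq_om om m) (fq_m om m)
      have u3 := b3 r hr
      have u4 := H M a a3 a4 r hr om m
      have u5 : d ≤ De M a r :=
        H' M a (a1.trans_le (min_le_right _ _)) (a2.trans_le (min_le_right _ _)) r hr
      have u6 : |ri (z r) (deriv z r)| ≤ ‖z r‖ * ‖D M a om m z r‖ / d := by
        rw [le_div_iff₀ hd]
        refine le_trans ?_ (abs_ri _ _)
        rw [ri_D, abs_mul, mul_comm]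
        gcongr; exact u5.trans (le_abs_self _)
      rw [pow_one] at u1 u2
      rw [← fq_sq]
      exact unc_pt hc hε p1 p2 p3.le hd (fq_one om m) (by rw [fq_sq, lam]; ring) (by linarith)
        (by linarith) (s4 r) (s5 r) u3 u1 u2 u4 (norm_nonneg _) (norm_nonneg _) u6
    simp only [s1 x le_rfl, s2 y le_rfl, zero_mul, zero_div, sub_zero] at key
    rw [int_sub3 cφ cB cz] at key
    have e2 := int_sub cφ.continuousOn (fun r _ => mul_nonneg (s4 r) (by positivity)) h1.le h2 h3.le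
    have e3 : (∫ r in x'..y', lam om m * ‖z r‖ ^ 2) = ∫ r in x'..y', χ r * (lam om m * ‖z r‖ ^ 2) :=
      integral_congr fun r hr => by rw [uIcc_of_le h2] at hr; simp only [s3 r hr, one_mul]
    rw [e3]
    nlinarith [mul_nonneg (sq_nonneg W) i1]

end Vale.Agent.P354M0
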